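import Vale.Agent.P150.Beta1.Local.Step

/-!
# One step of `∫ P log Q` and `∫ P² / Q` along the localisation

`P` and `Q` are the total masses of the components of two measures. Entropy, Shannon entropy and
variance are combinations of these integrals.
-/

namespace Vale.Agent.P150.Beta1.Local

open MeasureTheory ProbabilityTheory Finset Real

variable {X κ : Type*} [Fintype X] [Fintype κ] {p q : X → ℝ} {φ : X → κ → ℝ} {u : ℝ}

/-- Growth rate of the exponent at time `u`. -/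
noncomputable def rate (u : ℝ) : ℝ := √u + u

lemma abs_exponent_le_rate (φ : X → κ → ℝ) (hu : 0 ≤ u) (g : κ → ℝ) (x : X) :
    |√u * dotk g (φ x) - u * dotk (φ x) (φ x) / 2| ≤ rate u * env φ g := by
  have hs : 0 ≤ √u := Real.sqrt_nonneg u
  have hd : 0 ≤ dotk (φ x) (φ x) := sum_nonneg fun k _ => mul_self_nonneg _
  have a1 : |dotk g (φ x)| ≤ env φ g := by
    refine le_trans ?_ (le_add_of_nonneg_right (sum_nonneg fun y _ =>
      sum_nonneg fun k _ => mul_self_nonneg _))
    refine (abs_sum_le_sum_abs _ _).trans ?_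
    simp only [abs_mul]
    exact single_le_sum (f := fun y => ∑ k, |g k| * |φ y k|)
      (fun y _ => sum_nonneg fun k _ => by positivity) (mem_univ x)
  have a2 : dotk (φ x) (φ x) ≤ env φ g := by
    refine le_trans ?_ (le_add_of_nonneg_left (sum_nonneg fun y _ =>
      sum_nonneg fun k _ => by positivity))
    exact single_le_sum (f := fun y => dotk (φ y) (φ y))
      (fun y _ => sum_nonneg fun k _ => mul_self_nonneg _) (mem_univ x)
  refine (abs_sub _ _).trans ?_
  rw [abs_mul, abs_of_nonneg hs, abs_of_nonneg (show 0 ≤ u * dotk (φ x) (φ x) / 2 by positivity),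
    rate, add_mul]
  have := mul_le_mul_of_nonneg_left a1 hs
  have := mul_le_mul_of_nonneg_left a2 hu
  have := mul_nonneg hu hd
  linarith

lemma tot_tilt_bounds (hp : ∀ x, 0 ≤ p x) (hu : 0 ≤ u) (g : κ → ℝ) :
    tot p * exp (-(rate u * env φ g)) ≤ tot (tilt p φ u g) ∧
      tot (tilt p φ u g) ≤ tot p * exp (rate u * env φ g) := by
  constructor <;> (rw [tot, tot, sum_mul]; refine sum_le_sum fun x _ => ?_)
  · exact mul_le_mul_of_nonneg_left
      (exp_le_exp.2 (abs_le.1 (abs_exponent_le_rate φ hu g x)).1) (hp x)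
  · exact mul_le_mul_of_nonneg_left
      (exp_le_exp.2 (abs_le.1 (abs_exponent_le_rate φ hu g x)).2) (hp x)

lemma tot_tilt_pos (hp : ∀ x, 0 ≤ p x) (hp0 : 0 < tot p) (φ : X → κ → ℝ) (hu : 0 ≤ u)
    (g : κ → ℝ) : 0 < tot (tilt p φ u g) :=
  (mul_pos hp0 (exp_pos _)).trans_le (tot_tilt_bounds hp hu g).1

lemma continuous_tot_tilt (p : X → ℝ) (φ : X → κ → ℝ) (u : ℝ) :
    Continuous fun g => tot (tilt p φ u g) :=
  continuous_finsetSum _ fun x _ => continuous_tilt p φ u x

lemma continuous_bar_tilt (hp : ∀ x, 0 ≤ p x) (hp0 : 0 < tot p) (φ : X → κ → ℝ) (hu : 0 ≤ u)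
    (k : κ) : Continuous fun g => bar (tilt p φ u g) φ k :=
  Continuous.div₀ (continuous_finsetSum _ fun x _ => (continuous_tilt p φ u x).mul
    continuous_const) (continuous_tot_tilt p φ u) fun g => (tot_tilt_pos hp hp0 φ hu g).ne'

lemma abs_dotk_bar_le (hp : ∀ x, 0 ≤ p x) (hp0 : 0 < tot p) (hq : ∀ x, 0 ≤ q x) (hq0 : 0 < tot q)
    (φ : X → κ → ℝ) : |dotk (bar p φ) (bar q φ)| ≤ sqSum φ := by
  have hd : dotk (bar p φ) (bar q φ)
      = (∑ x, ∑ x', p x * q x' * dotk (φ x) (φ x')) / (tot p * tot q) := by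
    have e1 : dotk (bar p φ) (bar q φ)
        = (∑ k, (∑ x, p x * φ x k) * ∑ x, q x * φ x k) / (tot p * tot q) := by
      simp only [dotk, bar, div_mul_div_comm, ← sum_div]
    rw [e1]
    refine congrArg (fun t => t / (tot p * tot q)) ?_
    simp only [dotk, sum_mul_sum]
    simp only [mul_sum]
    rw [sum_comm]
    refine sum_congr rfl fun x _ => ?_
    rw [sum_comm]
    exact sum_congr rfl fun x' _ => sum_congr rfl fun k _ => by ring
  rw [hd, abs_div, abs_of_pos (mul_pos hp0 hq0), div_le_iff₀ (mul_pos hp0 hq0)]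
  refine (abs_sum_le_sum_abs _ _).trans ?_
  rw [tot, tot, sum_mul_sum, mul_sum]
  refine sum_le_sum fun x _ => (abs_sum_le_sum_abs _ _).trans ?_
  rw [mul_sum]
  refine sum_le_sum fun x' _ => ?_
  rw [abs_mul, abs_of_nonneg (mul_nonneg (hp x) (hq x')), mul_comm (sqSum φ)]
  exact mul_le_mul_of_nonneg_left (abs_dotk_le φ x x') (mul_nonneg (hp x) (hq x'))

lemma integrable_tot_tilt (hp : ∀ x, 0 ≤ p x) (φ : X → κ → ℝ) (hu : 0 ≤ u) :
    Integrable (fun g => tot (tilt p φ u g)) (gauss κ) :=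
  integrable_of_env φ (continuous_tot_tilt p φ u) (K := tot p) (c := rate u) fun g => by
    rw [abs_of_nonneg (show 0 ≤ tot (tilt p φ u g) from
      sum_nonneg fun x _ => tilt_nonneg hp φ u g x)]
    exact (tot_tilt_bounds hp hu g).2

lemma integral_tot_tilt (hp : ∀ x, 0 ≤ p x) (φ : X → κ → ℝ) (hu : 0 ≤ u) :
    ∫ g, tot (tilt p φ u g) ∂gauss κ = tot p := by
  simp only [tot]
  rw [integral_finsetSum _ fun x _ => ?_]
  · exact sum_congr rfl fun x _ => integral_tilt p φ hu x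
  refine integrable_of_env φ (continuous_tilt p φ u x) (K := p x) (c := rate u) fun g => ?_
  rw [abs_of_nonneg (tilt_nonneg hp φ u g x)]
  exact mul_le_mul_of_nonneg_left
    (exp_le_exp.2 (abs_le.1 (abs_exponent_le_rate φ hu g x)).2) (hp x)

omit [Fintype X] in
/-- Two steps, written through the components of the constant measure. -/
lemma tilt_tilt_eq (p : X → ℝ) (φ : X → κ → ℝ) (u h : ℝ) (g g' : κ → ℝ) :
    tilt (tilt p φ u g) φ h g' = fun x => tilt (tilt (fun _ => 1) φ u g) φ h g' x * p x := by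
  funext x
  simp only [tilt]
  ring

omit [Fintype X] in
lemma tilt_eq_one (p : X → ℝ) (φ : X → κ → ℝ) (u : ℝ) (g : κ → ℝ) :
    tilt p φ u g = fun x => tilt (fun _ => 1) φ u g x * p x := by
  funext x
  simp only [tilt]
  ring

/-- A one-step estimate with error `E` integrates to the interval `[v, v + h]`. -/
lemma step_of_pointwise [DecidableEq κ] {p q : X → ℝ} {v h : ℝ} (hv : 0 ≤ v) (hh : 0 ≤ h)
    {Φ : ℝ → ℝ → ℝ} {L E : (κ → ℝ) → ℝ}
    (hc : Continuous fun g : (κ → ℝ) × (κ → ℝ) =>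
      Φ (tot (tilt (tilt p φ v g.1) φ h g.2)) (tot (tilt (tilt q φ v g.1) φ h g.2)))
    (hc' : Continuous fun g => Φ (tot (tilt p φ (v + h) g)) (tot (tilt q φ (v + h) g)))
    (hi : Integrable (fun g => Φ (tot (tilt p φ (v + h) g)) (tot (tilt q φ (v + h) g))) (gauss κ))
    (hL : Integrable L (gauss κ)) (hE : Integrable E (gauss κ))
    (hstep : ∀ g, |(∫ g', Φ (tot (tilt (tilt p φ v g) φ h g'))
      (tot (tilt (tilt q φ v g) φ h g')) ∂gauss κ) - L g| ≤ E g) :
    |(∫ g, Φ (tot (tilt p φ (v + h) g)) (tot (tilt q φ (v + h) g)) ∂gauss κ)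
      - ∫ g, L g ∂gauss κ| ≤ ∫ g, E g ∂gauss κ := by
  have key : (∫ g, Φ (tot (tilt p φ (v + h) g)) (tot (tilt q φ (v + h) g)) ∂gauss κ)
      = ∫ g, (∫ g', Φ (tot (tilt (tilt p φ v g) φ h g'))
          (tot (tilt (tilt q φ v g) φ h g')) ∂gauss κ) ∂gauss κ := by
    set Ψ : (X → ℝ) → ℝ := fun r => Φ (tot fun x => r x * p x) (tot fun x => r x * q x)
    have e : ∀ g, Φ (tot (tilt p φ (v + h) g)) (tot (tilt q φ (v + h) g))
        = Ψ (tilt (fun _ => 1) φ (v + h) g) := fun g => by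
      rw [tilt_eq_one p φ, tilt_eq_one q φ]
    simp only [e] at hc' hi
    simp only [e, tilt_tilt_eq p, tilt_tilt_eq q]
    exact (integral_tilt_tilt _ φ hv hh (Ψ := Ψ) hc' hi).symm
  rw [key]
  set A := fun g => ∫ g', Φ (tot (tilt (tilt p φ v g) φ h g'))
    (tot (tilt (tilt q φ v g) φ h g')) ∂gauss κ
  have hAm : StronglyMeasurable A := hc.stronglyMeasurable.integral_prod_right'
  have hD : Integrable (fun g => A g - L g) (gauss κ) :=
    hE.mono' (hAm.aestronglyMeasurable.sub hL.aestronglyMeasurable) (ae_of_all _ hstep)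
  have hA : Integrable A (gauss κ) := by
    have := hD.fun_add hL
    simpa using this
  rw [← integral_sub hA hL]
  exact abs_integral_le_integral_abs.trans (integral_mono hD.abs hE hstep)

/-- The integrand `P log Q`. -/
noncomputable def logPair (p q : X → ℝ) (φ : X → κ → ℝ) (u : ℝ) (g : κ → ℝ) : ℝ :=
  tot (tilt p φ u g) * log (tot (tilt q φ u g))

/-- Its rate. -/
noncomputable def logRate (p q : X → ℝ) (φ : X → κ → ℝ) (u : ℝ) (g : κ → ℝ) : ℝ :=
  tot (tilt p φ u g) * (dotk (bar (tilt p φ u g) φ) (bar (tilt q φ u g) φ)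
    - dotk (bar (tilt q φ u g) φ) (bar (tilt q φ u g) φ) / 2)

lemma integrable_logPair (hp : ∀ x, 0 ≤ p x) (hq : ∀ x, 0 ≤ q x) (hq0 : 0 < tot q) (hu : 0 ≤ u) :
    Integrable (logPair p q φ u) (gauss κ) := by
  have hc : Continuous (logPair p q φ u) := (continuous_tot_tilt p φ u).mul
    ((continuous_tot_tilt q φ u).log fun g => (tot_tilt_pos hq hq0 φ hu g).ne')
  refine integrable_of_env φ hc (K := tot p * (|log (tot q)| + 1)) (c := 2 * rate u) fun g => ?_
  obtain ⟨b1, b2⟩ := tot_tilt_bounds (φ := φ) hq hu g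
  set L := rate u * env φ g
  have hL : 0 ≤ L := mul_nonneg (add_nonneg (Real.sqrt_nonneg u) hu) (env_nonneg φ g)
  have hpn : 0 ≤ tot (tilt p φ u g) := sum_nonneg fun x _ => tilt_nonneg hp φ u g x
  have hlog : |log (tot (tilt q φ u g))| ≤ (|log (tot q)| + 1) * exp L := by
    have l1 := log_le_log (mul_pos hq0 (exp_pos _)) b1
    have l2 := log_le_log (tot_tilt_pos hq hq0 φ hu g) b2
    rw [log_mul hq0.ne' (exp_pos _).ne', log_exp] at l1 l2
    have h3 : |log (tot (tilt q φ u g))| ≤ |log (tot q)| + L := by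
      rw [abs_le]
      constructor
      · linarith [neg_abs_le (log (tot q))]
      · linarith [le_abs_self (log (tot q))]
    refine h3.trans ?_
    have := mul_le_mul_of_nonneg_left (one_le_exp hL) (abs_nonneg (log (tot q)))
    linarith [add_one_le_exp L]
  rw [logPair, abs_mul, abs_of_nonneg hpn,
    show 2 * rate u * env φ g = L + L by ring, exp_add]
  calc _ ≤ tot p * exp L * ((|log (tot q)| + 1) * exp L) :=
        mul_le_mul (tot_tilt_bounds hp hu g).2 hlog (abs_nonneg _)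
          (mul_nonneg (sum_nonneg fun x _ => hp x) (exp_pos _).le)
    _ = _ := by ring

lemma integrable_logRate (hp : ∀ x, 0 ≤ p x) (hp0 : 0 < tot p) (hq : ∀ x, 0 ≤ q x)
    (hq0 : 0 < tot q) (hu : 0 ≤ u) : Integrable (logRate p q φ u) (gauss κ) := by
  have hb := continuous_bar_tilt hp hp0 φ hu
  have hb' := continuous_bar_tilt hq hq0 φ hu
  have hc : Continuous (logRate p q φ u) := (continuous_tot_tilt p φ u).mul
    ((continuous_finsetSum _ fun k _ => (hb k).mul (hb' k)).sub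
      ((continuous_finsetSum _ fun k _ => (hb' k).mul (hb' k)).div_const 2))
  refine integrable_of_env φ hc (K := tot p * (2 * sqSum φ)) (c := rate u) fun g => ?_
  have hP := tot_tilt_pos hp hp0 φ hu g
  have hQ := tot_tilt_pos hq hq0 φ hu g
  have hpn := fun x => tilt_nonneg hp φ u g x
  have hqn := fun x => tilt_nonneg hq φ u g x
  have h1 := abs_dotk_bar_le hpn hP hqn hQ φ
  have h2 := abs_dotk_bar_le hqn hQ hqn hQ φ
  rw [logRate, abs_mul, abs_of_pos hP, mul_right_comm]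
  refine mul_le_mul (tot_tilt_bounds hp hu g).2 ((abs_sub _ _).trans ?_) (abs_nonneg _)
    (mul_nonneg (sum_nonneg fun x _ => hp x) (exp_pos _).le)
  rw [abs_div, abs_two]
  linarith [abs_nonneg (dotk (bar (tilt q φ u g) φ) (bar (tilt q φ u g) φ))]

theorem logPair_step [DecidableEq κ] (hp : ∀ x, 0 ≤ p x) (hp0 : 0 < tot p) (hq : ∀ x, 0 ≤ q x)
    (hq0 : 0 < tot q) {v h : ℝ} (hv : 0 ≤ v) (hh : 0 ≤ h) (h1 : h ≤ 1) :
    |(∫ g, logPair p q φ (v + h) g ∂gauss κ)
      - ((∫ g, logPair p q φ v g ∂gauss κ) + h * ∫ g, logRate p q φ v g ∂gauss κ)|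
      ≤ tot p * (stepC φ * (h * √h)) := by
  have iL := integrable_logPair (φ := φ) hp hq hq0 hv
  have iR := (integrable_logRate (φ := φ) hp hp0 hq hq0 hv).const_mul h
  have iE := (integrable_tot_tilt hp φ hv).mul_const (stepC φ * (h * √h))
  have h2 := step_of_pointwise (φ := φ) (p := p) (q := q) hv hh (Φ := fun a b => a * log b)
    (L := fun g => logPair p q φ v g + h * logRate p q φ v g)
    (E := fun g => tot (tilt p φ v g) * (stepC φ * (h * √h))) ?_ ?_ ?_ (iL.fun_add iR) iE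
    (fun g => ?_)
  · rw [integral_mul_const, integral_tot_tilt hp φ hv, integral_add iL iR,
      integral_const_mul] at h2
    exact h2
  · have hpos : ∀ g : (κ → ℝ) × (κ → ℝ), tot (tilt (tilt q φ v g.1) φ h g.2) ≠ 0 := fun g =>
      (tot_tilt_pos (fun x => tilt_nonneg hq φ v g.1 x) (tot_tilt_pos hq hq0 φ hv g.1) φ hh g.2).ne'
    refine Continuous.mul ?_ (Continuous.log ?_ hpos) <;>
      (simp only [tot, tilt, dotk]; fun_prop)
  · exact (continuous_tot_tilt p φ _).mul ((continuous_tot_tilt q φ _).log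
      fun g => (tot_tilt_pos hq hq0 φ (add_nonneg hv hh) g).ne')
  · exact integrable_logPair hp hq hq0 (add_nonneg hv hh)
  · refine le_trans (le_of_eq ?_) (log_step φ (fun x => tilt_nonneg hp φ v g x)
      (tot_tilt_pos hp hp0 φ hv g) (fun x => tilt_nonneg hq φ v g x)
      (tot_tilt_pos hq hq0 φ hv g) hh h1)
    simp only [logPair, logRate]
    ring_nf

/-- The integrand `P² / Q`. -/
noncomputable def sqPair (p q : X → ℝ) (φ : X → κ → ℝ) (u : ℝ) (g : κ → ℝ) : ℝ :=
  tot (tilt p φ u g) ^ 2 / tot (tilt q φ u g)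

/-- Its rate: `P² / Q` times the squared distance of the mean features. -/
noncomputable def sqRate (p q : X → ℝ) (φ : X → κ → ℝ) (u : ℝ) (g : κ → ℝ) : ℝ :=
  sqPair p q φ u g * (dotk (bar (tilt p φ u g) φ) (bar (tilt p φ u g) φ)
    - 2 * dotk (bar (tilt p φ u g) φ) (bar (tilt q φ u g) φ)
    + dotk (bar (tilt q φ u g) φ) (bar (tilt q φ u g) φ))

lemma abs_sqPair_le (hp : ∀ x, 0 ≤ p x) (hq : ∀ x, 0 ≤ q x) (hq0 : 0 < tot q) (hu : 0 ≤ u)
    (g : κ → ℝ) : |sqPair p q φ u g| ≤ tot p ^ 2 / tot q * exp (3 * rate u * env φ g) := by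
  have hQ := tot_tilt_pos hq hq0 φ hu g
  rw [sqPair, abs_of_nonneg (div_nonneg (sq_nonneg _) hQ.le)]
  refine (div_le_div₀ (by positivity) (pow_le_pow_left₀ (sum_nonneg fun x _ =>
    tilt_nonneg hp φ u g x) (tot_tilt_bounds hp hu g).2 2) (mul_pos hq0 (exp_pos _))
    (tot_tilt_bounds hq hu g).1).trans (le_of_eq ?_)
  rw [show 3 * rate u * env φ g = rate u * env φ g + rate u * env φ g + rate u * env φ g by ring,
    exp_add, exp_add, exp_neg]
  field_simp

lemma integrable_sqPair (hp : ∀ x, 0 ≤ p x) (hq : ∀ x, 0 ≤ q x) (hq0 : 0 < tot q) (hu : 0 ≤ u) :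
    Integrable (sqPair p q φ u) (gauss κ) :=
  integrable_of_env φ (((continuous_tot_tilt p φ u).pow 2).div₀ (continuous_tot_tilt q φ u)
    fun g => (tot_tilt_pos hq hq0 φ hu g).ne') (fun g => abs_sqPair_le hp hq hq0 hu g)

lemma integrable_sqRate (hp : ∀ x, 0 ≤ p x) (hp0 : 0 < tot p) (hq : ∀ x, 0 ≤ q x)
    (hq0 : 0 < tot q) (hu : 0 ≤ u) : Integrable (sqRate p q φ u) (gauss κ) := by
  have hb := continuous_bar_tilt hp hp0 φ hu
  have hb' := continuous_bar_tilt hq hq0 φ hu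
  have hd : ∀ {a b : (κ → ℝ) → κ → ℝ}, (∀ k, Continuous fun g => a g k) →
      (∀ k, Continuous fun g => b g k) → Continuous fun g => dotk (a g) (b g) :=
    fun ha hb => continuous_finsetSum _ fun k _ => (ha k).mul (hb k)
  have hc : Continuous (sqRate p q φ u) :=
    (((continuous_tot_tilt p φ u).pow 2).div₀ (continuous_tot_tilt q φ u)
      fun g => (tot_tilt_pos hq hq0 φ hu g).ne').mul
      (((hd hb hb).sub ((hd hb hb').const_smul (2 : ℝ))).add (hd hb' hb'))
  refine integrable_of_env φ hc (K := tot p ^ 2 / tot q * (4 * sqSum φ)) (c := 3 * rate u)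
    fun g => ?_
  have hP := tot_tilt_pos hp hp0 φ hu g
  have hQ := tot_tilt_pos hq hq0 φ hu g
  have hpn := fun x => tilt_nonneg hp φ u g x
  have hqn := fun x => tilt_nonneg hq φ u g x
  have h1 := abs_le.1 (abs_dotk_bar_le hpn hP hpn hP φ)
  have h2 := abs_le.1 (abs_dotk_bar_le hpn hP hqn hQ φ)
  have h3 := abs_le.1 (abs_dotk_bar_le hqn hQ hqn hQ φ)
  rw [sqRate, abs_mul, mul_right_comm]
  refine mul_le_mul (abs_sqPair_le hp hq hq0 hu g) ?_ (abs_nonneg _)
    (mul_nonneg (div_nonneg (sq_nonneg _) hq0.le) (exp_pos _).le)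
  rw [abs_le]
  constructor <;> linarith [h1.1, h1.2, h2.1, h2.2, h3.1, h3.2]

theorem sqPair_step [DecidableEq κ] (hp : ∀ x, 0 ≤ p x) (hp0 : 0 < tot p) (hq : ∀ x, 0 ≤ q x)
    (hq0 : 0 < tot q) {v h : ℝ} (hv : 0 ≤ v) (hh : 0 ≤ h) (h1 : h ≤ 1) :
    |(∫ g, sqPair p q φ (v + h) g ∂gauss κ)
      - ((∫ g, sqPair p q φ v g ∂gauss κ) + h * ∫ g, sqRate p q φ v g ∂gauss κ)|
      ≤ (∫ g, sqPair p q φ v g ∂gauss κ) * (stepC φ * (h * √h)) := by
  have iL := integrable_sqPair (φ := φ) hp hq hq0 hv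
  have iR := (integrable_sqRate (φ := φ) hp hp0 hq hq0 hv).const_mul h
  have iE := iL.mul_const (stepC φ * (h * √h))
  have h2 := step_of_pointwise (φ := φ) (p := p) (q := q) hv hh (Φ := fun a b => a ^ 2 / b)
    (L := fun g => sqPair p q φ v g + h * sqRate p q φ v g)
    (E := fun g => sqPair p q φ v g * (stepC φ * (h * √h))) ?_ ?_ ?_ (iL.fun_add iR) iE
    (fun g => ?_)
  · rw [integral_mul_const, integral_add iL iR, integral_const_mul] at h2
    exact h2
  · have hpos : ∀ g : (κ → ℝ) × (κ → ℝ), tot (tilt (tilt q φ v g.1) φ h g.2) ≠ 0 := fun g =>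
      (tot_tilt_pos (fun x => tilt_nonneg hq φ v g.1 x) (tot_tilt_pos hq hq0 φ hv g.1) φ hh g.2).ne'
    refine Continuous.div₀ (Continuous.pow ?_ 2) ?_ hpos <;>
      (simp only [tot, tilt, dotk]; fun_prop)
  · exact ((continuous_tot_tilt p φ _).pow 2).div₀ (continuous_tot_tilt q φ _)
      fun g => (tot_tilt_pos hq hq0 φ (add_nonneg hv hh) g).ne'
  · exact integrable_sqPair hp hq hq0 (add_nonneg hv hh)
  · refine le_trans (le_of_eq ?_) (sq_step φ (fun x => tilt_nonneg hp φ v g x)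
      (tot_tilt_pos hp hp0 φ hv g) (fun x => tilt_nonneg hq φ v g x)
      (tot_tilt_pos hq hq0 φ hv g) hh h1)
    simp only [sqPair, sqRate]
    ring_nf

end Vale.Agent.P150.Beta1.Local
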