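import Vale.Agent.P150.Entropy
import Vale.Agent.P150.Beta1.Defs
import Vale.Agent.P150.Beta1.Local.Pairs

/-!
# The localisation of Ising measures along the spins

The components of `gibbs J 0` are the measures `gibbs J (√u g)` with weights `wgt J u g`. Entropy
relative to them decreases at rate `E |b_ν - b|² / 2`, Shannon entropy at rate `(n - E |b_ν|²) / 2`,
conditional variance at rate `E |Cov (f, x)|²`; Dirichlet forms do not increase in mean.
-/

namespace Vale.Agent.P150.Beta1.Local

open MeasureTheory ProbabilityTheory Finset Function Real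

variable {ι : Type*} [Fintype ι] [DecidableEq ι]

/-- The measure being localised. -/
noncomputable def p0 (J : ι → ι → ℝ) : (ι → Bool) → ℝ := gibbs J 0

/-- The field of a component. -/
noncomputable def fld (u : ℝ) (g : ι → ℝ) : ι → ℝ := fun i => √u * g i

/-- Weight of a component. -/
noncomputable def wgt (J : ι → ι → ℝ) (u : ℝ) (g : ι → ℝ) : ℝ := tot (tilt (p0 J) spins u g)

variable {J : ι → ι → ℝ} {u : ℝ}

omit [DecidableEq ι] in
lemma dotk_spins (x : ι → Bool) : dotk (spins x) (spins x) = Fintype.card ι := by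
  simp only [dotk, spins, spin]
  rw [sum_congr rfl fun k _ => show (if x k = true then (1 : ℝ) else -1)
    * (if x k = true then (1 : ℝ) else -1) = 1 by split_ifs <;> norm_num]
  simp

lemma p0_pos (J : ι → ι → ℝ) (x : ι → Bool) : 0 < p0 J x := gibbs_pos x

lemma tot_p0 (J : ι → ι → ℝ) : tot (p0 J) = 1 := gibbs_sum

lemma wgt_pos (J : ι → ι → ℝ) (hu : 0 ≤ u) (g : ι → ℝ) : 0 < wgt J u g :=
  tot_tilt_pos (fun x => (p0_pos J x).le) (by rw [tot_p0]; exact one_pos) spins hu g

lemma integrable_wgt (J : ι → ι → ℝ) (hu : 0 ≤ u) : Integrable (wgt J u) (gauss ι) :=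
  integrable_tot_tilt (fun x => (p0_pos J x).le) spins hu

lemma integral_wgt (J : ι → ι → ℝ) (hu : 0 ≤ u) : ∫ g, wgt J u g ∂gauss ι = 1 := by
  rw [← tot_p0 J]
  exact integral_tot_tilt (fun x => (p0_pos J x).le) spins hu

/-- The components. -/
theorem tilt_p0 (J : ι → ι → ℝ) (u : ℝ) (g : ι → ℝ) (x : ι → Bool) :
    tilt (p0 J) spins u g x = wgt J u g * gibbs J (fld u g) x := by
  set c := exp (-(u * Fintype.card ι / 2)) / ∑ y, exp (energy J 0 y)
  have e : ∀ y, tilt (p0 J) spins u g y = c * exp (energy J (fld u g) y) := fun y => by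
    have en : energy J (fld u g) y = energy J 0 y + √u * dotk g (spins y) := by
      simp only [energy, fld, dotk, spins, Pi.zero_apply, zero_mul, sum_const_zero, add_zero,
        mul_sum, mul_assoc]
    simp only [tilt, p0, gibbs, dotk_spins, c, en]
    rw [div_mul_eq_mul_div, div_mul_eq_mul_div, ← exp_add, ← exp_add]
    refine congrArg (fun t => exp t / _) ?_
    ring
  rw [wgt, tot, sum_congr rfl fun y _ => e y, e x, ← mul_sum, gibbs, mul_assoc,
    mul_div_cancel₀ _ partition_pos.ne']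

/-- Sums over a component are averages. -/
lemma sum_tilt (J : ι → ι → ℝ) (u : ℝ) (g : ι → ℝ) (Φ : (ι → Bool) → ℝ) :
    ∑ x, tilt (p0 J) spins u g x * Φ x = wgt J u g * mean (gibbs J (fld u g)) Φ := by
  simp only [tilt_p0, mean, mul_sum, mul_assoc]

lemma integral_sum_tilt (J : ι → ι → ℝ) (hu : 0 ≤ u) (Φ : (ι → Bool) → ℝ) :
    ∫ g, wgt J u g * mean (gibbs J (fld u g)) Φ ∂gauss ι = mean (p0 J) Φ := by
  simp only [← sum_tilt]
  rw [integral_finsetSum _ fun x _ => ?_]
  · exact sum_congr rfl fun x _ => by rw [integral_mul_const, integral_tilt _ _ hu]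
  refine (integrable_of_env spins (continuous_tilt (p0 J) spins u x) (K := p0 J x) (c := rate u)
    fun g => ?_).mul_const _
  rw [abs_of_nonneg (tilt_nonneg (fun y => (p0_pos J y).le) spins u g x)]
  exact mul_le_mul_of_nonneg_left
    (exp_le_exp.2 (abs_le.1 (abs_exponent_le_rate spins hu g x)).2) (p0_pos J x).le

lemma integrable_mean (J : ι → ι → ℝ) (hu : 0 ≤ u) (Φ : (ι → Bool) → ℝ) :
    Integrable (fun g => wgt J u g * mean (gibbs J (fld u g)) Φ) (gauss ι) := by
  simp only [← sum_tilt]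
  refine integrable_finsetSum _ fun x _ => (integrable_of_env spins
    (continuous_tilt (p0 J) spins u x) (K := p0 J x) (c := rate u) fun g => ?_).mul_const _
  rw [abs_of_nonneg (tilt_nonneg (fun y => (p0_pos J y).le) spins u g x)]
  exact mul_le_mul_of_nonneg_left
    (exp_le_exp.2 (abs_le.1 (abs_exponent_le_rate spins hu g x)).2) (p0_pos J x).le

/-- Mean feature of a tilted component. -/
lemma bar_tilt (J : ι → ι → ℝ) (hu : 0 ≤ u) (F : (ι → Bool) → ℝ) (g : ι → ℝ) (k : ι) :
    bar (tilt (fun x => p0 J x * F x) spins u g) spins k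
      = tmean (gibbs J (fld u g)) F fun x => spins x k := by
  have hw := (wgt_pos J hu g).ne'
  simp only [bar, tot, tilt_mul, mul_assoc, sum_tilt, tmean]
  rw [mul_div_mul_left _ _ hw]

lemma bar_p0 (J : ι → ι → ℝ) (hu : 0 ≤ u) (g : ι → ℝ) (k : ι) :
    bar (tilt (p0 J) spins u g) spins k = mean (gibbs J (fld u g)) fun x => spins x k := by
  have hw := (wgt_pos J hu g).ne'
  simp only [bar, sum_tilt]
  change wgt J u g * _ / wgt J u g = _
  rw [mul_div_cancel_left₀ _ hw]

/-! ### Dirichlet forms do not increase in mean -/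

lemma dirichlet_le_sub {ρ f : (ι → Bool) → ℝ} (hρ : IsWeight ρ) (G : ι → (ι → Bool) → ℝ)
    (hG : ∀ i x b, G i (update x i b) = G i x) :
    dirichlet ρ f ≤ ∑ i, mean ρ fun x => (f x - G i x) ^ 2 := by
  have e : dirichlet ρ f = ∑ i, mean ρ fun x => f x * (f x - resample ρ i f x) := by
    simp only [dirichlet, mean, generator, mul_sum, ← sum_neg_distrib]
    rw [sum_comm]
    exact sum_congr rfl fun i _ => sum_congr rfl fun x _ => by ring
  rw [e]
  refine sum_le_sum fun i _ => ?_
  have h1 := mean_resample hρ i f (G i) (hG i)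
  have h2 := mean_resample hρ i f (resample ρ i f) fun x b => resample_update_self ρ i f x b
  have h3 : 0 ≤ mean ρ fun x => (resample ρ i f x - G i x) ^ 2 :=
    sum_nonneg fun x _ => mul_nonneg (hρ.1 x).le (sq_nonneg _)
  have e1 : ∀ x, ρ x * (f x - G i x) ^ 2 = ρ x * (f x * (f x - resample ρ i f x))
      + ρ x * (resample ρ i f x * f x) - 2 * (ρ x * (G i x * f x)) + ρ x * G i x ^ 2 := fun x => by
    ring
  have e2 : ∀ x, ρ x * (resample ρ i f x - G i x) ^ 2 = ρ x * (resample ρ i f x * resample ρ i f x)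
      - 2 * (ρ x * (G i x * resample ρ i f x)) + ρ x * G i x ^ 2 := fun x => by ring
  simp only [mean, e2, sum_add_distrib, sum_sub_distrib, ← mul_sum] at h1 h2 h3
  simp only [mean, e1, sum_add_distrib, sum_sub_distrib, ← mul_sum]
  linarith

lemma dirichlet_eq_sub {ρ f : (ι → Bool) → ℝ} (hρ : IsWeight ρ) :
    dirichlet ρ f = ∑ i, mean ρ fun x => (f x - resample ρ i f x) ^ 2 := by
  refine le_antisymm (dirichlet_le_sub hρ (fun i => resample ρ i f)
    fun i x b => resample_update_self ρ i f x b) (le_of_eq ?_)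
  simp only [dirichlet, mean, generator, mul_sum, ← sum_neg_distrib]
  rw [sum_comm (s := univ (α := ι → Bool))]
  refine sum_congr rfl fun i _ => ?_
  have h2 := mean_resample hρ i f (resample ρ i f) fun x b => resample_update_self ρ i f x b
  have e : ∀ x, ρ x * (f x - resample ρ i f x) ^ 2 = -(ρ x * (f x * (resample ρ i f x - f x)))
      + ρ x * (resample ρ i f x * resample ρ i f x) - ρ x * (resample ρ i f x * f x) := fun x => by
    ring
  simp only [mean] at h2
  simp only [e, sum_add_distrib, sum_sub_distrib]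
  linarith

lemma dirichlet_nonneg' {ρ f : (ι → Bool) → ℝ} (hρ : IsWeight ρ) : 0 ≤ dirichlet ρ f := by
  rw [dirichlet_eq_sub hρ]
  exact sum_nonneg fun i _ => sum_nonneg fun x _ => mul_nonneg (hρ.1 x).le (sq_nonneg _)

/-- Dirichlet forms decrease in mean along the localisation. -/
theorem dirichlet_loc_le (J : ι → ι → ℝ) (hu : 0 ≤ u) (f : (ι → Bool) → ℝ) :
    ∫ g, wgt J u g * dirichlet (gibbs J (fld u g)) f ∂gauss ι ≤ dirichlet (p0 J) f := by
  set G := fun i => resample (p0 J) i f
  set Φ := fun x => ∑ i, (f x - G i x) ^ 2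
  have e : dirichlet (p0 J) f = mean (p0 J) Φ := by
    rw [dirichlet_eq_sub (ρ := p0 J) (IsWeight.gibbs J 0)]
    simp only [mean, Φ, G, mul_sum]
    exact sum_comm
  rw [e, ← integral_sum_tilt J hu Φ]
  refine integral_mono_of_nonneg (ae_of_all _ fun g => mul_nonneg (wgt_pos J hu g).le
    (dirichlet_nonneg' (IsWeight.gibbs _ _))) (integrable_mean J hu Φ) (ae_of_all _ fun g => ?_)
  refine mul_le_mul_of_nonneg_left ((dirichlet_le_sub (IsWeight.gibbs _ _) G
    fun i x b => resample_update_self _ i f x b).trans (le_of_eq ?_)) (wgt_pos J hu g).le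
  simp only [mean, Φ, mul_sum]
  exact sum_comm

/-- Single-site entropies decrease in mean along the localisation. -/
theorem siteEnt_loc_le (J : ι → ι → ℝ) (hu : 0 ≤ u) (i : ι) {f : (ι → Bool) → ℝ}
    (hf : ∀ x, 0 < f x) :
    ∫ g, wgt J u g * siteEnt (gibbs J (fld u g)) i f ∂gauss ι ≤ siteEnt (p0 J) i f := by
  set G := resample (p0 J) i f
  have hG : ∀ x, 0 < G x := resample_pos (IsWeight.gibbs J 0) hf i
  rw [siteEnt, ← integral_sum_tilt J hu]
  exact integral_mono_of_nonneg (ae_of_all _ fun g => mul_nonneg (wgt_pos J hu g).le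
    (siteEnt_nonneg (IsWeight.gibbs _ _) hf i)) (integrable_mean J hu _)
    (ae_of_all _ fun g => mul_le_mul_of_nonneg_left (siteEnt_le (IsWeight.gibbs _ _) hf i hG
      fun x b => resample_update_self _ i f x b) (wgt_pos J hu g).le)

/-! ### The three functionals -/

/-- Entropy of `F` in the components, in mean. -/
noncomputable def hEntropy (J : ι → ι → ℝ) (F : (ι → Bool) → ℝ) (u : ℝ) : ℝ :=
  ∫ g, wgt J u g * ent (gibbs J (fld u g)) F ∂gauss ι

/-- Its rate. -/
noncomputable def entRate (J : ι → ι → ℝ) (F : (ι → Bool) → ℝ) (u : ℝ) : ℝ :=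
  ∫ g, wgt J u g * mean (gibbs J (fld u g)) F
    * (∑ k, (tmean (gibbs J (fld u g)) F (fun x => spins x k)
        - mean (gibbs J (fld u g)) fun x => spins x k) ^ 2) / 2 ∂gauss ι

variable {F : (ι → Bool) → ℝ}

lemma pF_nonneg (J : ι → ι → ℝ) (hF : ∀ x, 0 < F x) (x : ι → Bool) : 0 ≤ p0 J x * F x :=
  (mul_pos (p0_pos J x) (hF x)).le

lemma pF_pos (J : ι → ι → ℝ) (hF : ∀ x, 0 < F x) : 0 < tot fun x => p0 J x * F x :=
  mean_pos (IsWeight.gibbs J 0) hF

lemma tot_pF (J : ι → ι → ℝ) (u : ℝ) (F : (ι → Bool) → ℝ) (g : ι → ℝ) :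
    tot (tilt (fun x => p0 J x * F x) spins u g) = wgt J u g * mean (gibbs J (fld u g)) F := by
  simp only [tot, tilt_mul, sum_tilt]

lemma hEntropy_eq (J : ι → ι → ℝ) (hu : 0 ≤ u) (hF : ∀ x, 0 < F x) :
    hEntropy J F u = mean (p0 J) (fun x => F x * log (F x))
      - ((∫ g, logPair (fun x => p0 J x * F x) (fun x => p0 J x * F x) spins u g ∂gauss ι)
        - ∫ g, logPair (fun x => p0 J x * F x) (p0 J) spins u g ∂gauss ι) := by
  have i1 := integrable_logPair (φ := spins) (pF_nonneg J hF) (pF_nonneg J hF) (pF_pos J hF) hu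
  have i2 := integrable_logPair (φ := spins) (q := p0 J) (pF_nonneg J hF)
    (fun x => (p0_pos J x).le) (by rw [tot_p0]; exact one_pos) hu
  rw [← integral_sub i1 i2, ← integral_sum_tilt J hu,
    ← integral_sub (integrable_mean J hu _) (i1.sub' i2), hEntropy]
  refine integral_congr_ae (ae_of_all _ fun g => ?_)
  have hm := mean_pos (IsWeight.gibbs J (fld u g)) hF
  have hw := wgt_pos J hu g
  simp only [logPair, tot_pF, show tot (tilt (p0 J) spins u g) = wgt J u g from rfl,
    ent_eq (IsWeight.gibbs J (fld u g)) hF]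
  rw [log_mul hw.ne' hm.ne']
  simp only [mean, mul_assoc]
  ring

lemma hEntropy_zero (J : ι → ι → ℝ) (F : (ι → Bool) → ℝ) :
    hEntropy J F 0 = ent (gibbs J 0) F := by
  have e : ∀ g, fld 0 g = (0 : ι → ℝ) := fun g => by funext i; simp [fld]
  simp only [hEntropy, e, integral_mul_const, integral_wgt J le_rfl, one_mul]

lemma hEntropy_nonneg (J : ι → ι → ℝ) (hu : 0 ≤ u) (hF : ∀ x, 0 < F x) : 0 ≤ hEntropy J F u :=
  integral_nonneg fun g => mul_nonneg (wgt_pos J hu g).le (ent_nonneg (IsWeight.gibbs _ _) hF)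

/-- `H' = -E |b_ν - b|² / 2`. -/
theorem hEntropy_step (J : ι → ι → ℝ) (hF : ∀ x, 0 < F x) {v h : ℝ} (hv : 0 ≤ v) (hh : 0 ≤ h)
    (h1 : h ≤ 1) : |hEntropy J F (v + h) - (hEntropy J F v - h * entRate J F v)|
      ≤ 2 * mean (p0 J) F * stepC (spins : (ι → Bool) → ι → ℝ) * (h * √h) := by
  set p := fun x => p0 J x * F x
  have hq : ∀ x, 0 ≤ p0 J x := fun x => (p0_pos J x).le
  have hq0 : 0 < tot (p0 J) := by rw [tot_p0]; exact one_pos
  have s1 := logPair_step (φ := spins) (pF_nonneg J hF) (pF_pos J hF) (pF_nonneg J hF)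
    (pF_pos J hF) hv hh h1
  have s2 := logPair_step (φ := spins) (q := p0 J) (pF_nonneg J hF) (pF_pos J hF) hq hq0 hv hh h1
  have r : entRate J F v = (∫ g, logRate p p spins v g ∂gauss ι)
      - ∫ g, logRate p (p0 J) spins v g ∂gauss ι := by
    rw [← integral_sub (integrable_logRate (pF_nonneg J hF) (pF_pos J hF) (pF_nonneg J hF)
      (pF_pos J hF) hv) (integrable_logRate (pF_nonneg J hF) (pF_pos J hF) hq hq0 hv), entRate]
    refine integral_congr_ae (ae_of_all _ fun g => ?_)
    simp only [logRate, p, tot_pF, dotk, bar_tilt J hv, bar_p0 J hv, sum_div, ← sum_sub_distrib,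
      mul_sum]
    exact sum_congr rfl fun k _ => by ring
  rw [hEntropy_eq J (add_nonneg hv hh) hF, hEntropy_eq J hv hF, r]
  rw [abs_le] at s1 s2 ⊢
  change _ ∧ _
  simp only [show mean (p0 J) F = tot p from rfl]
  constructor <;> linarith [s1.1, s1.2, s2.1, s2.2]

/-- Shannon entropy of `p0 · F` in the components, in mean. -/
noncomputable def hShannon (J : ι → ι → ℝ) (F : (ι → Bool) → ℝ) (u : ℝ) : ℝ :=
  ∫ g, (logPair (fun x => p0 J x * F x) (fun x => p0 J x * F x) spins u g
    - ∑ x, tilt (fun x => p0 J x * F x) spins u g x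
        * log (tilt (fun x => p0 J x * F x) spins u g x)) ∂gauss ι

/-- Mass times squared mean, in mean. -/
noncomputable def magSq (J : ι → ι → ℝ) (F : (ι → Bool) → ℝ) (u : ℝ) : ℝ :=
  ∫ g, wgt J u g * mean (gibbs J (fld u g)) F
    * ∑ k, tmean (gibbs J (fld u g)) F (fun x => spins x k) ^ 2 ∂gauss ι

lemma tot_single (p : (ι → Bool) → ℝ) (u : ℝ) (g : ι → ℝ) (x : ι → Bool) :
    tot (tilt (Pi.single x (p x)) spins u g) = tilt p spins u g x := by
  simp only [tot, tilt]
  rw [sum_eq_single x (fun y _ hy => by simp [Pi.single_eq_of_ne hy]) (by simp)]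
  simp

lemma hShannon_nonneg (J : ι → ι → ℝ) (hu : 0 ≤ u) (hF : ∀ x, 0 < F x) : 0 ≤ hShannon J F u := by
  refine integral_nonneg fun g => ?_
  set r := tilt (fun x => p0 J x * F x) spins u g
  have hr : ∀ x, 0 < r x := fun x => mul_pos (mul_pos (p0_pos J x) (hF x)) (exp_pos _)
  simp only [Pi.zero_apply, sub_nonneg, logPair, tot, sum_mul]
  exact sum_le_sum fun x _ => mul_le_mul_of_nonneg_left (log_le_log (hr x)
    (single_le_sum (fun y _ => (hr y).le) (mem_univ x))) (hr x).le

lemma hShannon_zero (J : ι → ι → ℝ) (F : (ι → Bool) → ℝ) :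
    hShannon J F 0 = mean (p0 J) F * log (mean (p0 J) F)
      - ∑ x, p0 J x * F x * log (p0 J x * F x) := by
  have e : ∀ g : ι → ℝ, tilt (fun x => p0 J x * F x) spins 0 g = fun x => p0 J x * F x :=
    fun g => by funext x; simp [tilt]
  simp only [hShannon, logPair, e, integral_const, probReal_univ, one_smul]
  rfl

/-- `H_sh' = -(n - E |b_ν|²) / 2`. -/
theorem hShannon_step (J : ι → ι → ℝ) (hF : ∀ x, 0 < F x) {v h : ℝ} (hv : 0 ≤ v) (hh : 0 ≤ h)
    (h1 : h ≤ 1) : |hShannon J F (v + h) - (hShannon J F v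
        - h * ((Fintype.card ι * mean (p0 J) F - magSq J F v) / 2))|
      ≤ 2 * mean (p0 J) F * stepC (spins : (ι → Bool) → ι → ℝ) * (h * √h) := by
  set p := fun x => p0 J x * F x
  set e := fun x : ι → Bool => (Pi.single x (p x) : (ι → Bool) → ℝ)
  have he : ∀ x y, 0 ≤ e x y := fun x y => by
    simp only [e, Pi.single_apply]; split_ifs
    · exact pF_nonneg J hF x
    · exact le_rfl
  have te : ∀ x, tot (e x) = p x := fun x => by simp [tot, e, Pi.single_apply]
  have he0 : ∀ x, 0 < tot (e x) := fun x => by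
    rw [te]; exact mul_pos (p0_pos J x) (hF x)
  have ip : ∀ {w : ℝ}, 0 ≤ w → Integrable (logPair p p spins w) (gauss ι) := fun hw =>
    integrable_logPair (pF_nonneg J hF) (pF_nonneg J hF) (pF_pos J hF) hw
  have ie : ∀ x {w : ℝ}, 0 ≤ w → Integrable (logPair (e x) (e x) spins w) (gauss ι) := fun x {w} hw =>
    integrable_logPair (he x) (he x) (he0 x) hw
  have hS : ∀ {w : ℝ}, 0 ≤ w → hShannon J F w = (∫ g, logPair p p spins w g ∂gauss ι)
      - ∑ x, ∫ g, logPair (e x) (e x) spins w g ∂gauss ι := fun {w} hw => by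
    rw [← integral_finsetSum _ fun x _ => ie x hw,
      ← integral_sub (ip hw) (integrable_finsetSum _ fun x _ => ie x hw), hShannon]
    refine integral_congr_ae (ae_of_all _ fun g => ?_)
    simp only [logPair, e, tot_single p]
    rfl
  have rp : magSq J F v / 2 = ∫ g, logRate p p spins v g ∂gauss ι := by
    rw [magSq, ← integral_div]
    refine integral_congr_ae (ae_of_all _ fun g => ?_)
    simp only [logRate, p, tot_pF, dotk, bar_tilt J hv, ← sq, sub_half]
    ring
  have re : ∀ x, ∫ g, logRate (e x) (e x) spins v g ∂gauss ι = p x * (Fintype.card ι / 2) := by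
    intro x
    have hd : ∀ g, dotk (bar (tilt (e x) spins v g) spins) (bar (tilt (e x) spins v g) spins)
        = Fintype.card ι := fun g => by
      have hb : bar (tilt (e x) spins v g) spins = spins x := by
        funext k
        have hne := (tot_tilt_pos (he x) (he0 x) spins hv g).ne'
        rw [bar, div_eq_iff hne, tot, sum_eq_single x (fun y _ hy => by
            simp [tilt, e, Pi.single_eq_of_ne hy]) (by simp), sum_eq_single x (fun y _ hy => by
            simp [tilt, e, Pi.single_eq_of_ne hy]) (by simp)]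
        ring
      rw [hb, dotk_spins]
    simp only [logRate, hd, sub_half, integral_mul_const, integral_tot_tilt (he x) spins hv, te]
  have s1 := logPair_step (φ := spins) (pF_nonneg J hF) (pF_pos J hF) (pF_nonneg J hF)
    (pF_pos J hF) hv hh h1
  have s2 := fun x => logPair_step (φ := spins) (he x) (he0 x) (he x) (he0 x) hv hh h1
  simp only [re, te] at s2
  rw [hS (add_nonneg hv hh), hS hv]
  have hsum := abs_sum_le_sum_abs (fun x => (∫ g, logPair (e x) (e x) spins (v + h) g ∂gauss ι)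
    - ((∫ g, logPair (e x) (e x) spins v g ∂gauss ι) + h * (p x * (Fintype.card ι / 2)))) univ
  have h3 := hsum.trans (sum_le_sum fun x _ => s2 x)
  rw [← sum_mul, sum_sub_distrib, sum_add_distrib, ← mul_sum, ← sum_mul] at h3
  rw [← rp] at s1
  rw [abs_le] at s1 h3 ⊢
  simp only [show mean (p0 J) F = tot p from rfl]
  simp only [show ∑ x, p x = tot p from rfl] at h3
  constructor <;> linarith [s1.1, s1.2, h3.1, h3.2]

/-- Variance in the components, in mean. -/
noncomputable def hVar (J : ι → ι → ℝ) (f : (ι → Bool) → ℝ) (u : ℝ) : ℝ :=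
  ∫ g, wgt J u g * Vale.Agent.P150.variance (gibbs J (fld u g)) f ∂gauss ι

/-- Its rate. -/
noncomputable def covRate (J : ι → ι → ℝ) (f : (ι → Bool) → ℝ) (u : ℝ) : ℝ :=
  ∫ g, wgt J u g * ∑ k, (mean (gibbs J (fld u g)) (fun x => f x * spins x k)
    - mean (gibbs J (fld u g)) f * mean (gibbs J (fld u g)) fun x => spins x k) ^ 2 ∂gauss ι

lemma variance_eq' {ρ f : (ι → Bool) → ℝ} (hρ : IsWeight ρ) :
    Vale.Agent.P150.variance ρ f = mean ρ (fun x => f x ^ 2) - mean ρ f ^ 2 := by
  have e : ∀ x, ρ x * (f x - mean ρ f) ^ 2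
      = ρ x * f x ^ 2 - 2 * mean ρ f * (ρ x * f x) + mean ρ f ^ 2 * ρ x := fun x => by ring
  simp only [Vale.Agent.P150.variance, mean] at e ⊢
  simp only [e, sum_add_distrib, sum_sub_distrib, ← mul_sum, hρ.2]
  ring

theorem hVar_step_pos (J : ι → ι → ℝ) {f : (ι → Bool) → ℝ} (hf : ∀ x, 0 < f x) {v h : ℝ}
    (hv : 0 ≤ v) (hh : 0 ≤ h) (h1 : h ≤ 1) :
    |hVar J f (v + h) - (hVar J f v - h * covRate J f v)|
      ≤ mean (p0 J) (fun x => f x ^ 2) * stepC (spins : (ι → Bool) → ι → ℝ) * (h * √h) := by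
  set p := fun x => p0 J x * f x
  have hq : ∀ x, 0 ≤ p0 J x := fun x => (p0_pos J x).le
  have hq0 : 0 < tot (p0 J) := by rw [tot_p0]; exact one_pos
  have hs : ∀ (w : ℝ) g, 0 ≤ w → sqPair p (p0 J) spins w g
      = wgt J w g * mean (gibbs J (fld w g)) f ^ 2 := fun w g hw => by
    have := (wgt_pos J hw g).ne'
    simp only [sqPair, p, tot_pF, show tot (tilt (p0 J) spins w g) = wgt J w g from rfl]
    field_simp
  have hV : ∀ {w : ℝ}, 0 ≤ w → hVar J f w
      = mean (p0 J) (fun x => f x ^ 2) - ∫ g, sqPair p (p0 J) spins w g ∂gauss ι := fun {w} hw => by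
    rw [← integral_sum_tilt J hw, ← integral_sub (integrable_mean J hw _)
      (integrable_sqPair (pF_nonneg J hf) hq hq0 hw), hVar]
    refine integral_congr_ae (ae_of_all _ fun g => ?_)
    simp only [show (fun x => p0 J x * f x) = p from rfl, hs w g hw, variance_eq' (IsWeight.gibbs _ _)]
    ring
  have r : covRate J f v = ∫ g, sqRate p (p0 J) spins v g ∂gauss ι := by
    refine integral_congr_ae (ae_of_all _ fun g => ?_)
    have hm := (mean_pos (IsWeight.gibbs J (fld v g)) hf).ne'
    simp only [sqRate, hs v g hv, p, dotk, bar_tilt J hv, bar_p0 J hv, tmean, mul_sum,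
      ← sum_sub_distrib, ← sum_add_distrib]
    refine sum_congr rfl fun k _ => ?_
    field_simp
    ring
  have s := sqPair_step (φ := spins) (q := p0 J) (pF_nonneg J hf) (pF_pos J hf) hq hq0 hv hh h1
  have hb : ∫ g, sqPair p (p0 J) spins v g ∂gauss ι ≤ mean (p0 J) fun x => f x ^ 2 := by
    have : 0 ≤ hVar J f v := integral_nonneg fun g => mul_nonneg (wgt_pos J hv g).le
      (sum_nonneg fun x _ => mul_nonneg (gibbs_pos x).le (sq_nonneg _))
    rw [hV hv] at this
    linarith
  have s' := s.trans (mul_le_mul_of_nonneg_right hb (mul_nonneg (by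
    refine add_nonneg (mul_nonneg (by norm_num) (integral_nonneg fun g => (exp_pos _).le))
      (mul_nonneg (by norm_num) (mul_nonneg (sq_nonneg _) (exp_pos _).le))) (by positivity)))
  rw [hV (add_nonneg hv hh), hV hv, r]
  rw [abs_le] at s' ⊢
  constructor <;> linarith [s'.1, s'.2]

lemma hVar_zero (J : ι → ι → ℝ) (f : (ι → Bool) → ℝ) :
    hVar J f 0 = Vale.Agent.P150.variance (gibbs J 0) f := by
  have e : ∀ g, fld 0 g = (0 : ι → ℝ) := fun g => by funext i; simp [fld]
  simp only [hVar, e, integral_mul_const, integral_wgt J le_rfl, one_mul]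

end Vale.Agent.P150.Beta1.Local
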