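import Mathlib

/-!
# From small steps to intervals

Functions with a one-step expansion `F (v + h) = F v - h G v + O(h √h)` inherit integral bounds.
-/

namespace Vale.Agent.P150.Beta1.Local

open Finset Real Filter
open scoped Topology

lemma exists_fine {T C ε : ℝ} (hT : 0 ≤ T) (hε : 0 < ε) :
    ∃ N : ℕ, 0 < N ∧ T / N ≤ 1 ∧ T * (C * √(T / N)) ≤ ε := by
  have h : Tendsto (fun N : ℕ => T / (N : ℝ)) atTop (𝓝 0) := tendsto_const_div_atTop_nhds_zero_nat T
  have h2 : Tendsto (fun N : ℕ => T * (C * √(T / N))) atTop (𝓝 0) := by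
    simpa using ((h.sqrt.const_mul C).const_mul T)
  obtain ⟨N, a, b, c⟩ := ((eventually_gt_atTop 0).and
    ((h.eventually_le_const one_pos).and (h2.eventually_le_const hε))).exists
  exact ⟨N, a, b, c⟩

/-- A uniform upper bound on the rate bounds the decrease. -/
theorem decrease_le {F G : ℝ → ℝ} {T B C : ℝ} (hT : 0 ≤ T)
    (step : ∀ v h, 0 ≤ v → 0 ≤ h → h ≤ 1 → v + h ≤ T → |F (v + h) - (F v - h * G v)| ≤ C * (h * √h))
    (hG : ∀ v, 0 ≤ v → v ≤ T → G v ≤ B) : F 0 - F T ≤ T * B := by
  refine le_of_forall_pos_le_add fun ε hε => ?_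
  obtain ⟨N, hN, hN1, hN2⟩ := exists_fine (C := C) hT hε
  set h := T / N
  have hN' : (0:ℝ) < N := Nat.cast_pos.2 hN
  have h0 : 0 ≤ h := div_nonneg hT hN'.le
  have hNh : (N : ℝ) * h = T := mul_div_cancel₀ _ hN'.ne'
  have main : ∀ k : ℕ, k ≤ N → F 0 - F (k * h) ≤ k * (h * B + C * (h * √h)) := by
    intro k
    induction k with
    | zero => simp
    | succ k ih =>
      intro hk
      have hle : ((k:ℝ) + 1) * h ≤ T := by
        rw [← hNh]
        exact mul_le_mul_of_nonneg_right (by exact_mod_cast hk) h0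
      rw [add_mul, one_mul] at hle
      have hk0 : 0 ≤ (k:ℝ) * h := mul_nonneg (Nat.cast_nonneg k) h0
      have hs := (abs_le.1 (step _ h hk0 h0 hN1 hle)).1
      have := mul_le_mul_of_nonneg_left (hG _ hk0 (by linarith)) h0
      have := ih (by omega)
      push_cast
      rw [add_mul, one_mul]
      linarith
  have hm := main N le_rfl
  rw [hNh, mul_add, ← mul_assoc, hNh, show (N:ℝ) * (C * (h * √h)) = ↑N * h * (C * √h) by ring,
    hNh] at hm
  linarith

/-- A continuous lower bound on the rate, through a primitive, bounds the decrease from below. -/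
theorem decrease_ge {F G P p : ℝ → ℝ} {T C : ℝ} (hT : 0 ≤ T)
    (step : ∀ v h, 0 ≤ v → 0 ≤ h → h ≤ 1 → v + h ≤ T → |F (v + h) - (F v - h * G v)| ≤ C * (h * √h))
    (hP : ∀ v ∈ Set.Icc 0 T, HasDerivWithinAt P (p v) (Set.Icc 0 T) v)
    (hp : ContinuousOn p (Set.Icc 0 T))
    (hG : ∀ v, 0 ≤ v → v ≤ T → p v ≤ G v) : P T - P 0 ≤ F 0 - F T := by
  refine le_of_forall_pos_le_add fun ε hε => ?_
  obtain ⟨δ, hδ, hu⟩ := Metric.uniformContinuousOn_iff.1
    (isCompact_Icc.uniformContinuousOn_of_continuous hp) (ε / (2 * (T + 1))) (by positivity)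
  have h' : Tendsto (fun N : ℕ => T / (N : ℝ)) atTop (𝓝 0) :=
    tendsto_const_div_atTop_nhds_zero_nat T
  have h2 : Tendsto (fun N : ℕ => T * (C * √(T / N))) atTop (𝓝 0) := by
    simpa using ((h'.sqrt.const_mul C).const_mul T)
  obtain ⟨N, hN, hN1, hNδ, hN2⟩ := ((eventually_gt_atTop 0).and
    ((h'.eventually_le_const one_pos).and ((h'.eventually_lt_const hδ).and
      (h2.eventually_le_const (half_pos hε))))).exists
  set h := T / N
  have hN' : (0:ℝ) < N := Nat.cast_pos.2 hN
  have h0 : 0 ≤ h := div_nonneg hT hN'.le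
  have hNh : (N : ℝ) * h = T := mul_div_cancel₀ _ hN'.ne'
  set e := ε / (2 * (T + 1))
  have main : ∀ k : ℕ, k ≤ N → P (k * h) - P 0 ≤ F 0 - F (k * h) + k * (h * e + C * (h * √h)) := by
    intro k
    induction k with
    | zero => simp
    | succ k ih =>
      intro hk
      set v := (k:ℝ) * h
      have hle : v + h ≤ T := by
        have : ((k:ℝ) + 1) * h ≤ N * h := mul_le_mul_of_nonneg_right (by exact_mod_cast hk) h0
        rw [hNh, add_mul, one_mul] at this
        exact this
      have hv : 0 ≤ v := mul_nonneg (Nat.cast_nonneg k) h0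
      have hsub : Set.Icc v (v + h) ⊆ Set.Icc 0 T := Set.Icc_subset_Icc hv hle
      have hd : ‖P (v + h) - p v * (v + h) - (P v - p v * v)‖ ≤ e * ‖(v + h) - v‖ := by
        refine (convex_Icc v (v + h)).norm_image_sub_le_of_norm_hasDerivWithin_le
          (f := fun w => P w - p v * w) (f' := fun w => p w - p v) (fun w hw => ?_) (fun w hw => ?_)
          (Set.left_mem_Icc.2 (by linarith)) (Set.right_mem_Icc.2 (by linarith))
        · exact ((hP w (hsub hw)).mono hsub).sub (by
            simpa using ((hasDerivAt_id w).const_mul (p v)).hasDerivWithinAt)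
        · refine (hu w (hsub hw) v (hsub (Set.left_mem_Icc.2 (by linarith))) ?_).le
          rw [Real.dist_eq, abs_of_nonneg (by linarith [hw.1])]
          linarith [hw.2]
      rw [Real.norm_eq_abs, Real.norm_eq_abs, add_sub_cancel_left, abs_of_nonneg h0] at hd
      have hd' := (abs_le.1 hd).2
      have hs := (abs_le.1 (step v h hv h0 hN1 hle)).2
      have := mul_le_mul_of_nonneg_left (hG v hv (by linarith)) h0
      have := ih (by omega)
      push_cast
      rw [add_mul, one_mul]
      linarith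
  have hm := main N le_rfl
  rw [mul_add, ← mul_assoc, hNh, show (N:ℝ) * (C * (h * √h)) = ↑N * h * (C * √h) by ring,
    hNh] at hm
  have he : T * e ≤ ε / 2 := by
    rw [← mul_div_assoc, div_le_iff₀ (by positivity)]
    linarith
  linarith

/-- Gronwall for the one-step expansion. -/
theorem gronwall_steps {F G : ℝ → ℝ} {T c B C : ℝ} (hT : 0 ≤ T) (hc : 0 ≤ c) (hB : 0 ≤ B)
    (step : ∀ v h, 0 ≤ v → 0 ≤ h → h ≤ 1 → v + h ≤ T → |F (v + h) - (F v - h * G v)| ≤ C * (h * √h))
    (hG : ∀ v, 0 ≤ v → v ≤ T → G v ≤ c * F v + B) :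
    F 0 ≤ exp (2 * c * T) * (|F T| + T * B) := by
  refine le_of_forall_pos_le_add fun ε hε => ?_
  have h' : Tendsto (fun N : ℕ => T / (N : ℝ)) atTop (𝓝 0) :=
    tendsto_const_div_atTop_nhds_zero_nat T
  have h2 : Tendsto (fun N : ℕ => T * (exp (2 * c * T) * |C| * √(T / N))) atTop (𝓝 0) := by
    simpa using ((h'.sqrt.const_mul (exp (2 * c * T) * |C|)).const_mul T)
  have h3 : Tendsto (fun N : ℕ => c * (T / (N : ℝ))) atTop (𝓝 0) := by
    simpa using h'.const_mul c
  obtain ⟨N, hN, hN1, hN2, hN3⟩ := ((eventually_gt_atTop 0).and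
    ((h'.eventually_le_const one_pos).and ((h2.eventually_le_const hε).and
      (h3.eventually_le_const (show (0:ℝ) < 1 / 2 by norm_num))))).exists
  set h := T / N
  have hN' : (0:ℝ) < N := Nat.cast_pos.2 hN
  have h0 : 0 ≤ h := div_nonneg hT hN'.le
  have hNh : (N : ℝ) * h = T := mul_div_cancel₀ _ hN'.ne'
  have main : ∀ k : ℕ, k ≤ N → F (T - k * h)
      ≤ exp (2 * c * (k * h)) * (|F T| + k * (h * B + |C| * (h * √h))) := by
    intro k
    induction k with
    | zero => simpa using le_abs_self (F T)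
    | succ k ih =>
      intro hk
      set v := T - ((k:ℝ) + 1) * h with hvdef
      have hv : 0 ≤ v := by
        rw [hvdef, sub_nonneg, ← hNh]
        exact mul_le_mul_of_nonneg_right (by exact_mod_cast hk) h0
      have hvh : v + h = T - k * h := by rw [hvdef]; ring
      have hkh : 0 ≤ (k:ℝ) * h := by positivity
      have hs := (abs_le.1 (step v h hv h0 hN1 (by rw [hvh]; linarith))).1
      rw [hvh] at hs
      have hg := mul_le_mul_of_nonneg_left (hG v hv (by linarith [mul_nonneg hc h0, hvh])) h0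
      have hi := ih (by omega)
      set M := exp (2 * c * (k * h))
      set R := |F T| + (k:ℝ) * (h * B + |C| * (h * √h))
      have hx : 0 ≤ h * B + |C| * (h * √h) := by positivity
      have hCabs := mul_le_mul_of_nonneg_right (le_abs_self C) (show 0 ≤ h * √h by positivity)
      have h5 : F v * (1 - c * h) ≤ M * R + (h * B + |C| * (h * √h)) := by linarith
      have hch : 0 < 1 - c * h := by linarith
      have hinv : 1 / (1 - c * h) ≤ exp (2 * c * h) := by
        rw [div_le_iff₀ hch]
        have e1 := add_one_le_exp (2 * c * h)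
        have : 1 ≤ (1 + 2 * c * h) * (1 - c * h) := by
          have := mul_nonneg (mul_nonneg hc h0) (show 0 ≤ 1 - 2 * (c * h) by linarith)
          linarith
        exact this.trans (mul_le_mul_of_nonneg_right (by linarith) hch.le)
      have hM : 1 ≤ M := one_le_exp (by positivity)
      have hR : 0 ≤ R := by positivity
      have h6 : F v ≤ exp (2 * c * h) * (M * (R + (h * B + |C| * (h * √h)))) := by
        rw [← le_div_iff₀ hch] at h5
        refine h5.trans ?_
        rw [div_eq_mul_one_div, mul_comm]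
        refine mul_le_mul hinv ?_ (by positivity) (exp_pos _).le
        rw [mul_add M R]
        exact add_le_add le_rfl (le_mul_of_one_le_left hx hM)
      push_cast
      refine h6.trans (le_of_eq ?_)
      rw [← mul_assoc, ← exp_add]
      simp only [R]
      ring_nf
  have hm := main N le_rfl
  rw [hNh, sub_self, mul_add (N:ℝ), ← mul_assoc, hNh,
    show (N:ℝ) * (|C| * (h * √h)) = ↑N * h * (|C| * √h) by ring, hNh] at hm
  linarith

end Vale.Agent.P150.Beta1.Local
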