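import Vale.Agent.P150.Beta1.Local.Tilt

/-!
# One small step of the localisation

Second-order expansions of `P log Q` and `P² / Q` for total masses `P`, `Q` of two measures, with
errors `O(h √h)` uniform in the measures. All entropy, variance and Shannon derivatives follow.
-/

namespace Vale.Agent.P150.Beta1.Local

open MeasureTheory ProbabilityTheory Finset Real

variable {X κ : Type*} [Fintype X] [Fintype κ]

lemma abs_log_one_add_sub {b : ℝ} (hb : 0 < 1 + b) :
    |log (1 + b) - b + b ^ 2 / 2| ≤ |b| ^ 3 / min 1 (1 + b) := by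
  set s := Set.uIcc (0 : ℝ) b
  have hm : 0 < min 1 (1 + b) := lt_min one_pos hb
  have hlow : ∀ x ∈ s, min 1 (1 + b) ≤ 1 + x ∧ |x| ≤ |b| := by
    intro x hx
    rcases Set.mem_uIcc.1 hx with ⟨h1, h2⟩ | ⟨h1, h2⟩
    · exact ⟨(min_le_left _ _).trans (by linarith), abs_le_abs h2 (by linarith)⟩
    · refine ⟨(min_le_right _ _).trans (by linarith), ?_⟩
      rw [abs_of_nonpos h2, abs_of_nonpos (h1.trans h2)]
      linarith
  have hd : ∀ x ∈ s,
      HasDerivWithinAt (fun t => log (1 + t) - t + t ^ 2 / 2) (x ^ 2 / (1 + x)) s x := by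
    intro x hx
    have hx0 : 0 < 1 + x := hm.trans_le (hlow x hx).1
    have h1 := ((hasDerivAt_id x).const_add 1).log hx0.ne'
    refine (((h1.sub (hasDerivAt_id x)).add ((hasDerivAt_pow 2 x).div_const 2)).congr_deriv
      ?_).hasDerivWithinAt
    simp only [id]
    field_simp
    ring
  have hb' : ∀ x ∈ s, ‖x ^ 2 / (1 + x)‖ ≤ b ^ 2 / min 1 (1 + b) := by
    intro x hx
    obtain ⟨h1, h2⟩ := hlow x hx
    rw [Real.norm_eq_abs, abs_div, abs_of_nonneg (sq_nonneg x), abs_of_pos (hm.trans_le h1)]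
    exact div_le_div₀ (sq_nonneg b) (sq_le_sq.2 h2) hm h1
  have h := (convex_uIcc (0 : ℝ) b).norm_image_sub_le_of_norm_hasDerivWithin_le hd hb'
    Set.left_mem_uIcc Set.right_mem_uIcc
  simp only [Real.norm_eq_abs, add_zero, log_one, zero_pow two_ne_zero, zero_div, sub_zero] at h
  refine h.trans (le_of_eq ?_)
  rw [div_mul_eq_mul_div, ← sq_abs b, pow_succ |b| 2]

lemma abs_exp_sub_one_le (t : ℝ) : |exp t - 1| ≤ |t| * exp |t| := by
  have h1 := add_one_le_exp t
  have h2 := add_one_le_exp (-t)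
  have he : 1 - exp t * exp (-t) = 0 := by rw [← exp_add]; simp
  rcases le_or_gt 0 t with h | h
  · rw [abs_of_nonneg h, abs_of_nonneg (by linarith [one_le_exp h])]
    have := mul_le_mul_of_nonneg_left h2 (exp_pos t).le
    linarith
  · rw [abs_of_neg h, abs_of_neg (by linarith [exp_lt_one_iff.2 h])]
    have := mul_le_mul_of_nonneg_left (one_le_exp (x := -t) (by linarith)) (neg_pos.2 h).le
    linarith

lemma abs_exp_sub_one_sub_le (t : ℝ) : |exp t - 1 - t| ≤ t ^ 2 * exp |t| := by
  have h1 : 0 ≤ exp t - 1 - t := by linarith [add_one_le_exp t]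
  rw [abs_of_nonneg h1]
  have he : exp t * exp (-t) = 1 := by rw [← exp_add]; simp
  have h2 := mul_le_mul_of_nonneg_left (add_one_le_exp (-t)) (exp_pos t).le
  -- `exp t - 1 - t ≤ t (exp t - 1)`
  have h3 : exp t - 1 - t ≤ t * (exp t - 1) := by linarith
  refine h3.trans ((le_abs_self _).trans ?_)
  rw [abs_mul]
  calc |t| * |exp t - 1| ≤ |t| * (|t| * exp |t|) :=
        mul_le_mul_of_nonneg_left (abs_exp_sub_one_le t) (abs_nonneg t)
    _ = _ := by rw [← mul_assoc, abs_mul_abs_self, sq]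

/-- Relative change of the total mass under one step. -/
noncomputable def rel (p : X → ℝ) (φ : X → κ → ℝ) (h : ℝ) (g : κ → ℝ) : ℝ :=
  (∑ x, p x * (exp (√h * dotk g (φ x) - h * dotk (φ x) (φ x) / 2) - 1)) / tot p

variable {p q : X → ℝ} (φ : X → κ → ℝ) {h : ℝ}

lemma tot_tilt (hp : 0 < tot p) (g : κ → ℝ) :
    tot (tilt p φ h g) = tot p * (1 + rel p φ h g) := by
  rw [rel, mul_add, mul_div_cancel₀ _ hp.ne']
  simp only [tot, tilt, mul_sub, mul_one, sum_sub_distrib, add_sub_cancel]

lemma rel_bounds (hp : ∀ x, 0 ≤ p x) (hp0 : 0 < tot p) (h0 : 0 ≤ h) (h1 : h ≤ 1) (g : κ → ℝ) :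
    exp (-(√h * env φ g)) ≤ 1 + rel p φ h g ∧ 1 + rel p φ h g ≤ exp (√h * env φ g) ∧
      |rel p φ h g| ≤ √h * env φ g * exp (√h * env φ g) := by
  set L := √h * env φ g
  have hb : ∀ x, |√h * dotk g (φ x) - h * dotk (φ x) (φ x) / 2| ≤ L := abs_exponent_le φ h0 h1 g
  have e : 1 + rel p φ h g = tot (tilt p φ h g) / tot p := by
    rw [tot_tilt φ hp0, mul_div_cancel_left₀ _ hp0.ne']
  refine ⟨?_, ?_, ?_⟩
  · rw [e, le_div_iff₀ hp0, tot, mul_sum]
    exact sum_le_sum fun x _ => (mul_comm _ _).trans_le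
      (mul_le_mul_of_nonneg_left (exp_le_exp.2 (abs_le.1 (hb x)).1) (hp x))
  · rw [e, div_le_iff₀ hp0, tot, tot, mul_sum]
    exact sum_le_sum fun x _ =>
      (mul_le_mul_of_nonneg_left (exp_le_exp.2 (abs_le.1 (hb x)).2) (hp x)).trans_eq (mul_comm _ _)
  · rw [rel, abs_div, abs_of_pos hp0, div_le_iff₀ hp0]
    refine (abs_sum_le_sum_abs _ _).trans ?_
    rw [tot, mul_sum]
    refine sum_le_sum fun x _ => ?_
    rw [abs_mul, abs_of_nonneg (hp x), mul_comm (L * exp L)]
    refine mul_le_mul_of_nonneg_left ((abs_exp_sub_one_le _).trans ?_) (hp x)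
    exact mul_le_mul (hb x) (exp_le_exp.2 (hb x)) (exp_pos _).le
      (mul_nonneg (Real.sqrt_nonneg h) (env_nonneg φ g))

lemma continuous_rel : Continuous (rel p φ h) := by
  unfold rel dotk
  fun_prop

lemma integrable_env_pow (K : ℝ) {F : (κ → ℝ) → ℝ} (hF : Continuous F) (c : ℕ)
    (hb : ∀ g, |F g| ≤ K * exp ((c : ℝ) * env φ g)) : Integrable F (gauss κ) :=
  integrable_of_env φ hF hb

/-- Size of the squared features. -/
def sqSum : ℝ := ∑ x, dotk (φ x) (φ x)

lemma abs_dotk_le (x x' : X) : |dotk (φ x) (φ x')| ≤ sqSum φ := by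
  have hn : ∀ y : X, 0 ≤ dotk (φ y) (φ y) := fun y => sum_nonneg fun k _ => mul_self_nonneg _
  have h2 : ∀ y : X, dotk (φ y) (φ y) ≤ sqSum φ := fun y =>
    single_le_sum (f := fun y => dotk (φ y) (φ y)) (fun z _ => hn z) (mem_univ y)
  have h3 : 2 * |dotk (φ x) (φ x')| ≤ dotk (φ x) (φ x) + dotk (φ x') (φ x') := by
    refine (mul_le_mul_of_nonneg_left (abs_sum_le_sum_abs _ _) (by norm_num)).trans ?_
    simp only [dotk, mul_sum, ← sum_add_distrib]
    refine sum_le_sum fun k _ => ?_
    rcases abs_cases (φ x k * φ x' k) with ⟨e, -⟩ | ⟨e, -⟩ <;> rw [e]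
    · linarith [mul_self_nonneg (φ x k - φ x' k)]
    · linarith [mul_self_nonneg (φ x k + φ x' k)]
  linarith [h2 x, h2 x']

lemma integral_rel (hp0 : 0 < tot p) (h0 : 0 ≤ h) : ∫ g, rel p φ h g ∂gauss κ = 0 := by
  have e : ∀ g, rel p φ h g = (∑ x, (tilt p φ h g x - p x)) / tot p := fun g => by
    simp only [rel, tilt, mul_sub, mul_one]
  have hi : ∀ x, Integrable (fun g => tilt p φ h g x) (gauss κ) := fun x => by
    refine integrable_of_env φ (continuous_tilt p φ h x) (K := |p x|) (c := √h) fun g => ?_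
    rw [tilt, abs_mul, abs_exp]
    refine mul_le_mul_of_nonneg_left (exp_le_exp.2 ?_) (abs_nonneg _)
    have hd : 0 ≤ dotk (φ x) (φ x) := sum_nonneg fun k _ => mul_self_nonneg _
    have : dotk g (φ x) ≤ env φ g := by
      have a : dotk g (φ x) ≤ ∑ y, ∑ k, |g k| * |φ y k| := by
        refine le_trans (sum_le_sum fun k _ => (le_abs_self _).trans (abs_mul _ _).le) ?_
        exact single_le_sum (f := fun y => ∑ k, |g k| * |φ y k|)
          (fun y _ => sum_nonneg fun k _ => by positivity) (mem_univ x)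
      refine a.trans ?_
      rw [env, le_add_iff_nonneg_right]
      exact sum_nonneg fun y _ => sum_nonneg fun k _ => mul_self_nonneg _
    have := mul_le_mul_of_nonneg_left this (Real.sqrt_nonneg h)
    have := mul_nonneg h0 hd
    linarith
  simp only [e, integral_div]
  rw [integral_finsetSum _ fun x _ => (hi x).sub' (integrable_const _)]
  simp only [integral_sub (hi _) (integrable_const _), integral_tilt p φ h0, integral_const,
    probReal_univ, one_smul, sub_self, sum_const_zero, zero_div]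

lemma integrable_rel_mul (hp : ∀ x, 0 ≤ p x) (hp0 : 0 < tot p) (hq : ∀ x, 0 ≤ q x)
    (hq0 : 0 < tot q) (h0 : 0 ≤ h) (h1 : h ≤ 1) :
    Integrable (fun g => rel p φ h g * rel q φ h g) (gauss κ) := by
  refine integrable_of_env φ ((continuous_rel φ).mul (continuous_rel φ)) (K := 1) (c := 4)
    fun g => ?_
  set L := √h * env φ g
  have hL : 0 ≤ L := mul_nonneg (Real.sqrt_nonneg h) (env_nonneg φ g)
  have hLe : L ≤ env φ g :=
    mul_le_of_le_one_left (env_nonneg φ g) (Real.sqrt_le_one.2 h1)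
  have hk : L * exp L ≤ exp (2 * L) := by
    rw [two_mul, exp_add]
    exact mul_le_mul_of_nonneg_right (by linarith [add_one_le_exp L]) (exp_pos L).le
  rw [one_mul, abs_mul]
  refine (mul_le_mul ((rel_bounds φ hp hp0 h0 h1 g).2.2.trans hk)
    ((rel_bounds φ hq hq0 h0 h1 g).2.2.trans hk) (abs_nonneg _) (exp_pos _).le).trans ?_
  rw [← exp_add]
  exact exp_le_exp.2 (by linarith)

lemma integral_rel_mul (hp : ∀ x, 0 ≤ p x) (hp0 : 0 < tot p) (hq : ∀ x, 0 ≤ q x)
    (hq0 : 0 < tot q) (h0 : 0 ≤ h) (h1 : h ≤ 1) :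
    |∫ g, rel p φ h g * rel q φ h g ∂gauss κ - h * dotk (bar p φ) (bar q φ)|
      ≤ h * √h * (sqSum φ ^ 2 * exp (sqSum φ)) := by
  set D := sqSum φ
  set e : X → (κ → ℝ) → ℝ := fun x g => exp (√h * dotk g (φ x) - h * dotk (φ x) (φ x) / 2)
  have hb : ∀ x g, e x g ≤ exp (1 * env φ g) := fun x g => by
    refine exp_le_exp.2 (((le_abs_self _).trans (abs_exponent_le φ h0 h1 g x)).trans ?_)
    rw [one_mul]
    exact mul_le_of_le_one_left (env_nonneg φ g) (Real.sqrt_le_one.2 h1)
  have hec : ∀ x, Continuous (e x) := fun x => by simp only [e, dotk]; fun_prop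
  have he : ∀ x, Integrable (e x) (gauss κ) := fun x =>
    integrable_of_env φ (hec x) (K := 1) fun g => by
      rw [one_mul, abs_exp]; exact hb x g
  have hee : ∀ x x', Integrable (fun g => e x g * e x' g) (gauss κ) := fun x x' =>
    integrable_of_env φ ((hec x).mul (hec x')) (K := 1) (c := 2) fun g => by
      rw [one_mul, abs_mul, abs_exp, abs_exp, two_mul, exp_add]
      exact mul_le_mul (one_mul (env φ g) ▸ hb x g) (one_mul (env φ g) ▸ hb x' g) (exp_pos _).le
        (exp_pos _).le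
  have e1 : ∀ x, ∫ g, e x g ∂gauss κ = 1 := fun x => by
    simpa [tilt, e] using integral_tilt (fun _ => (1:ℝ)) φ h0 x
  have hI : ∀ x x', ∫ g, (e x g - 1) * (e x' g - 1) ∂gauss κ
      = exp (h * dotk (φ x) (φ x')) - 1 := fun x x' => by
    have : ∀ g, (e x g - 1) * (e x' g - 1) = e x g * e x' g - (e x g + e x' g - 1) := fun g => by
      ring
    simp only [this]
    rw [integral_sub (hee x x') (((he x).fun_add (he x')).sub' (integrable_const _)),
      integral_sub ((he x).fun_add (he x')) (integrable_const _), integral_add (he x) (he x')]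
    simp only [e1, integral_const, probReal_univ, one_smul]
    rw [integral_exp_pair φ h0]
    ring
  have key : ∫ g, rel p φ h g * rel q φ h g ∂gauss κ
      = (∑ x, ∑ x', p x * q x' * (exp (h * dotk (φ x) (φ x')) - 1)) / (tot p * tot q) := by
    have r : ∀ g, rel p φ h g * rel q φ h g
        = (∑ x, ∑ x', p x * q x' * ((e x g - 1) * (e x' g - 1))) / (tot p * tot q) := fun g => by
      simp only [rel, div_mul_div_comm, sum_mul_sum]
      refine congrArg (· / _) (sum_congr rfl fun x _ => sum_congr rfl fun x' _ => ?_)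
      ring
    have hi : ∀ x x', Integrable (fun g => p x * q x' * ((e x g - 1) * (e x' g - 1))) (gauss κ) :=
      fun x x' => by
        refine Integrable.const_mul ?_ _
        have : (fun g => (e x g - 1) * (e x' g - 1))
            = fun g => e x g * e x' g - (e x g + e x' g - 1) := by funext g; ring
        rw [this]
        exact (hee x x').sub' (((he x).fun_add (he x')).sub' (integrable_const _))
    simp only [r, integral_div]
    rw [integral_finsetSum _ fun x _ => integrable_finsetSum _ fun x' _ => hi x x']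
    refine congrArg (· / _) (sum_congr rfl fun x _ => ?_)
    rw [integral_finsetSum _ fun x' _ => hi x x']
    exact sum_congr rfl fun x' _ => by rw [integral_const_mul, hI]
  have key2 : h * dotk (bar p φ) (bar q φ)
      = (∑ x, ∑ x', p x * q x' * (h * dotk (φ x) (φ x'))) / (tot p * tot q) := by
    have hd : dotk (bar p φ) (bar q φ)
        = (∑ k, (∑ x, p x * φ x k) * ∑ x, q x * φ x k) / (tot p * tot q) := by
      simp only [dotk, bar, div_mul_div_comm, ← sum_div]
    rw [hd, ← mul_div_assoc]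
    refine congrArg (fun t => t / (tot p * tot q)) ?_
    simp only [dotk, sum_mul_sum]
    simp only [mul_sum]
    rw [sum_comm]
    refine sum_congr rfl fun x _ => ?_
    rw [sum_comm]
    exact sum_congr rfl fun x' _ => sum_congr rfl fun k _ => by ring
  rw [key, key2, ← sub_div, abs_div, abs_of_pos (mul_pos hp0 hq0), div_le_iff₀ (mul_pos hp0 hq0)]
  simp only [← sum_sub_distrib, ← mul_sub]
  refine (abs_sum_le_sum_abs _ _).trans ?_
  calc ∑ x, |∑ x', p x * q x' * (exp (h * dotk (φ x) (φ x')) - 1 - h * dotk (φ x) (φ x'))|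
      ≤ ∑ x, ∑ x', p x * q x' * (h * √h * (D ^ 2 * exp D)) :=
        sum_le_sum fun x _ => (abs_sum_le_sum_abs _ _).trans (sum_le_sum fun x' _ => by
          rw [abs_mul, abs_of_nonneg (mul_nonneg (hp x) (hq x'))]
          refine mul_le_mul_of_nonneg_left ((abs_exp_sub_one_sub_le _).trans ?_)
            (mul_nonneg (hp x) (hq x'))
          have hd := abs_dotk_le φ x x'
          have hD : 0 ≤ D := (abs_nonneg _).trans hd
          rw [abs_mul, abs_of_nonneg h0, mul_pow]
          have hh : h ^ 2 ≤ h * √h := by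
            rw [sq]
            exact mul_le_mul_of_nonneg_left
              (Real.le_sqrt_of_sq_le (by rw [sq]; exact mul_le_of_le_one_left h0 h1)) h0
          calc h ^ 2 * dotk (φ x) (φ x') ^ 2 * exp (h * |dotk (φ x) (φ x')|)
              ≤ h * √h * D ^ 2 * exp D :=
                mul_le_mul (mul_le_mul hh (by rw [← sq_abs]; exact pow_le_pow_left₀ (abs_nonneg _) hd 2)
                    (sq_nonneg _) (by positivity))
                  (exp_le_exp.2 ((mul_le_of_le_one_left (abs_nonneg _) h1).trans hd))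
                  (exp_pos _).le (by positivity)
            _ = _ := by ring)
    _ = _ := by simp only [tot, sum_mul_sum]; simp only [mul_sum, sum_mul]; exact sum_congr rfl fun _ _ => sum_congr rfl fun _ _ => by ring

/-- The constant of the error terms. -/
noncomputable def stepC : ℝ :=
  60 * (∫ g, exp (8 * env φ g) ∂gauss κ) + 4 * (sqSum φ ^ 2 * exp (sqSum φ))

lemma integral_step {F : (κ → ℝ) → ℝ} (hF : Continuous F) (h0 : 0 ≤ h) (h1 : h ≤ 1)
    (hb : ∀ g, |F g| ≤ 10 * (√h * env φ g) ^ 3 * exp (6 * (√h * env φ g))) :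
    Integrable F (gauss κ) ∧ |∫ g, F g ∂gauss κ| ≤ 60 * (∫ g, exp (8 * env φ g) ∂gauss κ) * (h * √h) := by
  have hb' : ∀ g, |F g| ≤ 60 * (h * √h) * exp (8 * env φ g) := fun g => by
    refine (hb g).trans ?_
    have hE := env_nonneg φ g
    have h3 : env φ g ^ 3 ≤ 6 * exp (env φ g) := by
      have := Real.pow_div_factorial_le_exp _ hE 3
      rw [div_le_iff₀ (by positivity)] at this
      norm_num [Nat.factorial] at this
      linarith
    have hs3 : √h ^ 3 = h * √h := by rw [pow_succ, Real.sq_sqrt h0]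
    rw [mul_pow, hs3]
    calc 10 * (h * √h * env φ g ^ 3) * exp (6 * (√h * env φ g))
        ≤ 10 * (h * √h * (6 * exp (env φ g))) * exp (6 * env φ g) := by
          gcongr
          exact mul_le_of_le_one_left hE (Real.sqrt_le_one.2 h1)
      _ = 60 * (h * √h) * exp (env φ g + 6 * env φ g) := by rw [exp_add]; ring
      _ ≤ _ := by gcongr; linarith
  refine ⟨integrable_of_env φ hF hb', ?_⟩
  refine (abs_integral_le_integral_abs).trans ((integral_mono_of_nonneg
    (ae_of_all _ fun g => abs_nonneg _) ((integrable_exp_env φ 8).const_mul _)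
    (ae_of_all _ hb')).trans (le_of_eq ?_))
  rw [integral_const_mul]
  ring

/-- `P log Q` over one step. -/
theorem log_step (hp : ∀ x, 0 ≤ p x) (hp0 : 0 < tot p) (hq : ∀ x, 0 ≤ q x) (hq0 : 0 < tot q)
    (h0 : 0 ≤ h) (h1 : h ≤ 1) :
    |(∫ g, tot (tilt p φ h g) * log (tot (tilt q φ h g)) ∂gauss κ)
      - (tot p * log (tot q) + h * tot p * (dotk (bar p φ) (bar q φ)
          - dotk (bar q φ) (bar q φ) / 2))| ≤ tot p * (stepC φ * (h * √h)) := by
  set a := rel p φ h
  set b := rel q φ h
  set R : (κ → ℝ) → ℝ := fun g => (1 + a g) * (log (1 + b g) - b g + b g ^ 2 / 2) - a g * b g ^ 2 / 2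
  have hL : ∀ g, 0 ≤ √h * env φ g := fun g => mul_nonneg (Real.sqrt_nonneg h) (env_nonneg φ g)
  have hB := fun g => rel_bounds φ hq hq0 h0 h1 g
  have hA := fun g => rel_bounds φ hp hp0 h0 h1 g
  have hb0 : ∀ g, 0 < 1 + b g := fun g => (exp_pos _).trans_le (hB g).1
  have hRb : ∀ g, |R g| ≤ 10 * (√h * env φ g) ^ 3 * exp (6 * (√h * env φ g)) := fun g => by
    obtain ⟨a1, a2, a3⟩ := hA g
    obtain ⟨b1, b2, b3⟩ := hB g
    set L := √h * env φ g
    have hL0 := hL g
    have hmin : exp (-L) ≤ min 1 (1 + b g) := le_min (exp_le_one_iff.2 (by linarith)) b1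
    have c3 : |b g| ^ 3 ≤ L ^ 3 * exp (3 * L) := by
      refine (pow_le_pow_left₀ (abs_nonneg _) b3 3).trans (le_of_eq ?_)
      rw [mul_pow, ← exp_nat_mul]; norm_num
    have t1 : |(1 + a g) * (log (1 + b g) - b g + b g ^ 2 / 2)| ≤ L ^ 3 * exp (5 * L) := by
      rw [abs_mul, abs_of_pos ((exp_pos _).trans_le a1)]
      have := (abs_log_one_add_sub (hb0 g)).trans (div_le_div₀ (by positivity) c3 (exp_pos _) hmin)
      calc (1 + a g) * _ ≤ exp L * (L ^ 3 * exp (3 * L) / exp (-L)) :=
            mul_le_mul a2 this (abs_nonneg _) (exp_pos _).le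
        _ = L ^ 3 * (exp L * exp (3 * L) * exp L) := by rw [exp_neg, div_inv_eq_mul]; ring
        _ = _ := by rw [← exp_add, ← exp_add]; ring_nf
    have t2 : |a g * b g ^ 2 / 2| ≤ L ^ 3 * exp (3 * L) := by
      rw [abs_div, abs_mul, abs_pow, abs_two]
      refine (div_le_self (by positivity) one_le_two).trans ?_
      refine (mul_le_mul a3 (pow_le_pow_left₀ (abs_nonneg _) b3 2) (by positivity)
        (by positivity)).trans (le_of_eq ?_)
      rw [mul_pow, show (3:ℝ) * L = L + (L + L) by ring, exp_add, exp_add]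
      ring
    refine (abs_sub _ _).trans ((add_le_add t1 t2).trans ?_)
    have e5 : exp (5 * L) ≤ exp (6 * L) := exp_le_exp.2 (by linarith)
    have e3 : exp (3 * L) ≤ exp (6 * L) := exp_le_exp.2 (by linarith)
    have hl3 : 0 ≤ L ^ 3 := by positivity
    have := mul_le_mul_of_nonneg_left e5 hl3
    have := mul_le_mul_of_nonneg_left e3 hl3
    have := mul_nonneg hl3 (exp_pos (6 * L)).le
    linarith
  have hac : Continuous a := continuous_rel φ
  have hbc : Continuous b := continuous_rel φ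
  have hRc : Continuous R := by
    refine Continuous.sub (Continuous.mul (by fun_prop) ?_) (by fun_prop)
    exact ((continuous_const.add hbc).log fun g => (hb0 g).ne').sub hbc |>.add (by fun_prop)
  obtain ⟨hRi, hRI⟩ := integral_step φ hRc h0 h1 hRb
  have hab := integrable_rel_mul φ hp hp0 hq hq0 h0 h1
  have hbb := integrable_rel_mul φ hq hq0 hq hq0 h0 h1
  have hi1 : ∀ {r : X → ℝ}, (∀ x, 0 ≤ r x) → 0 < tot r → Integrable (rel r φ h) (gauss κ) :=
    fun {r} hr hr0 => by
      refine integrable_of_env φ (continuous_rel φ) (K := 1) (c := 2) fun g => ?_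
      refine (rel_bounds φ hr hr0 h0 h1 g).2.2.trans ?_
      have hle : √h * env φ g ≤ env φ g :=
        mul_le_of_le_one_left (env_nonneg φ g) (Real.sqrt_le_one.2 h1)
      rw [one_mul, two_mul, exp_add]
      exact mul_le_mul (by linarith [add_one_le_exp (env φ g)]) (exp_le_exp.2 hle) (exp_pos _).le
        (exp_pos _).le
  have e : ∀ g, tot (tilt p φ h g) * log (tot (tilt q φ h g))
      = tot p * (log (tot q) + log (tot q) * a g + (b g + (a g * b g + (R g - b g * b g / 2)))) := by
    intro g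
    rw [tot_tilt φ hp0, tot_tilt φ hq0, log_mul hq0.ne' (hb0 g).ne']
    simp only [R, a, b]
    ring
  simp only [e, integral_const_mul]
  have iR := hRi.sub' (hbb.div_const 2)
  have iab := hab.fun_add iR
  have ib := (hi1 hq hq0).fun_add iab
  have ic := (integrable_const (log (tot q))).fun_add ((hi1 hp hp0).const_mul (log (tot q)))
  rw [integral_add ic ib, integral_add (integrable_const _) ((hi1 hp hp0).const_mul _),
    integral_add (hi1 hq hq0) iab, integral_add hab iR, integral_sub hRi (hbb.div_const 2),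
    integral_const_mul, integral_div]
  simp only [a, b, integral_rel φ hp0 h0, integral_rel φ hq0 h0, integral_const, probReal_univ,
    one_smul, mul_zero, add_zero, zero_add]
  have m1 := integral_rel_mul φ hp hp0 hq hq0 h0 h1
  have m2 := integral_rel_mul φ hq hq0 hq hq0 h0 h1
  rw [show ∀ (P l I J K c d : ℝ), P * (l + (I + (J - K / 2))) - (P * l + h * P * (c - d / 2))
      = P * ((I - h * c) + J - (K - h * d) / 2) from fun P l I J K c d => by ring,
    abs_mul, abs_of_pos hp0]
  refine mul_le_mul_of_nonneg_left ?_ hp0.le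
  refine (abs_sub _ _).trans ((add_le_add (abs_add_le _ _) le_rfl).trans ?_)
  rw [abs_div, abs_two, stepC]
  have : 0 ≤ h * √h * (sqSum φ ^ 2 * exp (sqSum φ)) := by positivity
  linarith

/-- `P² / Q` over one step. -/
theorem sq_step (hp : ∀ x, 0 ≤ p x) (hp0 : 0 < tot p) (hq : ∀ x, 0 ≤ q x) (hq0 : 0 < tot q)
    (h0 : 0 ≤ h) (h1 : h ≤ 1) :
    |(∫ g, tot (tilt p φ h g) ^ 2 / tot (tilt q φ h g) ∂gauss κ)
      - tot p ^ 2 / tot q * (1 + h * (dotk (bar p φ) (bar p φ) - 2 * dotk (bar p φ) (bar q φ)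
          + dotk (bar q φ) (bar q φ)))| ≤ tot p ^ 2 / tot q * (stepC φ * (h * √h)) := by
  set a := rel p φ h
  set b := rel q φ h
  set R : (κ → ℝ) → ℝ := fun g => -(a g ^ 2 * b g) + 2 * (a g * b g ^ 2) + a g ^ 2 * b g ^ 2
    - (1 + a g) ^ 2 * b g ^ 3 / (1 + b g)
  have hA := fun g => rel_bounds φ hp hp0 h0 h1 g
  have hB := fun g => rel_bounds φ hq hq0 h0 h1 g
  have hb0 : ∀ g, 0 < 1 + b g := fun g => (exp_pos _).trans_le (hB g).1
  have hRb : ∀ g, |R g| ≤ 10 * (√h * env φ g) ^ 3 * exp (6 * (√h * env φ g)) := fun g => by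
    obtain ⟨a1, a2, a3⟩ := hA g
    obtain ⟨b1, b2, b3⟩ := hB g
    set L := √h * env φ g
    have hL0 : 0 ≤ L := mul_nonneg (Real.sqrt_nonneg h) (env_nonneg φ g)
    set E := exp L
    have hE : 1 ≤ E := one_le_exp hL0
    have c1 : |a g| ≤ E := by
      rw [abs_le]; constructor
      · linarith [(exp_pos (-L)).trans_le a1]
      · linarith
    have l0 : 0 ≤ L ^ 3 := by positivity
    have m21 : ∀ {u v : ℝ}, |u| ≤ L * E → |v| ≤ L * E → |u ^ 2 * v| ≤ L ^ 3 * E ^ 3 := fun hu hv => by
      rw [abs_mul, abs_pow]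
      refine (mul_le_mul (pow_le_pow_left₀ (abs_nonneg _) hu 2) hv (abs_nonneg _)
        (by positivity)).trans (le_of_eq ?_)
      ring
    have t1 := m21 a3 b3
    have t2 : |a g * b g ^ 2| ≤ L ^ 3 * E ^ 3 := by rw [mul_comm]; exact m21 b3 a3
    have t3 : |a g ^ 2 * b g ^ 2| ≤ E * (L ^ 3 * E ^ 3) := by
      rw [show a g ^ 2 * b g ^ 2 = a g * (a g * b g ^ 2) by ring, abs_mul]
      exact mul_le_mul c1 t2 (abs_nonneg _) (by positivity)
    have t4 : |(1 + a g) ^ 2 * b g ^ 3 / (1 + b g)| ≤ L ^ 3 * E ^ 6 := by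
      rw [abs_div, abs_mul, abs_pow, abs_pow, abs_of_pos (hb0 g),
        abs_of_pos ((exp_pos _).trans_le a1)]
      calc (1 + a g) ^ 2 * |b g| ^ 3 / (1 + b g) ≤ E ^ 2 * (L * E) ^ 3 / exp (-L) :=
            div_le_div₀ (by positivity)
              (mul_le_mul (pow_le_pow_left₀ ((exp_pos _).trans_le a1).le a2 2)
                (pow_le_pow_left₀ (abs_nonneg _) b3 3) (by positivity) (by positivity))
              (exp_pos _) b1
        _ = _ := by rw [exp_neg, div_inv_eq_mul]; ring
    have e36 : L ^ 3 * E ^ 3 ≤ L ^ 3 * E ^ 6 :=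
      mul_le_mul_of_nonneg_left (pow_le_pow_right₀ hE (by norm_num)) l0
    have e46 : E * (L ^ 3 * E ^ 3) ≤ L ^ 3 * E ^ 6 := by
      rw [show E * (L ^ 3 * E ^ 3) = L ^ 3 * E ^ 4 by ring]
      exact mul_le_mul_of_nonneg_left (pow_le_pow_right₀ hE (by norm_num)) l0
    rw [show exp (6 * L) = E ^ 6 by rw [← exp_nat_mul]; norm_num]
    refine (abs_sub _ _).trans ?_
    have := abs_add_le (-(a g ^ 2 * b g) + 2 * (a g * b g ^ 2)) (a g ^ 2 * b g ^ 2)
    have := abs_add_le (-(a g ^ 2 * b g)) (2 * (a g * b g ^ 2))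
    rw [abs_neg, abs_mul 2, abs_two] at this
    have := mul_nonneg l0 (pow_nonneg (zero_le_one.trans hE) 6)
    linarith
  have hac : Continuous a := continuous_rel φ
  have hbc : Continuous b := continuous_rel φ
  have hRc : Continuous R :=
    Continuous.sub (by fun_prop) (Continuous.div₀ (by fun_prop) (continuous_const.add hbc)
      fun g => (hb0 g).ne')
  obtain ⟨hRi, hRI⟩ := integral_step φ hRc h0 h1 hRb
  have hab := integrable_rel_mul φ hp hp0 hq hq0 h0 h1
  have haa := integrable_rel_mul φ hp hp0 hp hp0 h0 h1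
  have hbb := integrable_rel_mul φ hq hq0 hq hq0 h0 h1
  have hi1 : ∀ {r : X → ℝ}, (∀ x, 0 ≤ r x) → 0 < tot r → Integrable (rel r φ h) (gauss κ) :=
    fun {r} hr hr0 => by
      refine integrable_of_env φ (continuous_rel φ) (K := 1) (c := 2) fun g => ?_
      refine (rel_bounds φ hr hr0 h0 h1 g).2.2.trans ?_
      have hle : √h * env φ g ≤ env φ g :=
        mul_le_of_le_one_left (env_nonneg φ g) (Real.sqrt_le_one.2 h1)
      rw [one_mul, two_mul, exp_add]
      exact mul_le_mul (by linarith [add_one_le_exp (env φ g)]) (exp_le_exp.2 hle) (exp_pos _).le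
        (exp_pos _).le
  have e : ∀ g, tot (tilt p φ h g) ^ 2 / tot (tilt q φ h g) = tot p ^ 2 / tot q
      * (1 + 2 * a g + (-b g + ((a g * a g - 2 * (a g * b g)) + (b g * b g + R g)))) := by
    intro g
    rw [tot_tilt φ hp0, tot_tilt φ hq0, mul_pow, mul_div_mul_comm]
    refine congrArg _ ?_
    have := (hb0 g).ne'
    simp only [R, a, b] at this ⊢
    field_simp
    ring
  simp only [e, integral_const_mul]
  have i5 := hbb.fun_add hRi
  have i4 := (haa.sub' (hab.const_mul 2)).fun_add i5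
  have i3 := (hi1 hq hq0).fun_neg.fun_add i4
  rw [integral_add ((integrable_const (1:ℝ)).fun_add ((hi1 hp hp0).const_mul 2)) i3,
    integral_add (integrable_const _) ((hi1 hp hp0).const_mul 2),
    integral_add (hi1 hq hq0).fun_neg i4, integral_add (haa.sub' (hab.const_mul 2)) i5,
    integral_sub haa (hab.const_mul 2), integral_add hbb hRi, integral_neg, integral_const_mul,
    integral_const_mul]
  simp only [a, b, integral_rel φ hp0 h0, integral_rel φ hq0 h0, integral_const, probReal_univ,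
    one_smul, mul_zero, add_zero, neg_zero, zero_add]
  have m1 := integral_rel_mul φ hp hp0 hp hp0 h0 h1
  have m2 := integral_rel_mul φ hp hp0 hq hq0 h0 h1
  have m3 := integral_rel_mul φ hq hq0 hq hq0 h0 h1
  have hP : 0 < tot p ^ 2 / tot q := by positivity
  rw [← mul_sub, abs_mul, abs_of_pos hP,
    show ∀ A B C R c d e : ℝ, (1 + (A - 2 * B + (C + R))) - (1 + h * (c - 2 * d + e))
      = (A - h * c) - 2 * (B - h * d) + (C - h * e) + R from fun A B C R c d e => by ring]
  refine mul_le_mul_of_nonneg_left ?_ hP.le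
  refine (abs_add_le _ _).trans ((add_le_add ((abs_add_le _ _).trans
    (add_le_add (abs_sub _ _) le_rfl)) le_rfl).trans ?_)
  rw [abs_mul 2, abs_two, stepC]
  linarith

end Vale.Agent.P150.Beta1.Local
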