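import Mathlib
import Vale.Agent.P150.GaussIBP
import Vale.Agent.P150.Edge

/-!
# Gaussian localisation of a finite measure along features

`tilt p φ u g` is the unnormalised component `p x · exp (√u ⟨g, φ x⟩ - u |φ x|² / 2)`. It averages
to `p` over a standard Gaussian `g`, and composes additively in `u`.
-/

namespace Vale.Agent.P150.Beta1.Local

open MeasureTheory ProbabilityTheory Finset Real

variable {X κ : Type*} [Fintype X] [Fintype κ]

/-- Inner product of two feature vectors. -/
def dotk (a b : κ → ℝ) : ℝ := ∑ k, a k * b k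

/-- Unnormalised component of the localisation. -/
noncomputable def tilt (p : X → ℝ) (φ : X → κ → ℝ) (u : ℝ) (g : κ → ℝ) (x : X) : ℝ :=
  p x * exp (√u * dotk g (φ x) - u * dotk (φ x) (φ x) / 2)

/-- Total mass. -/
def tot (p : X → ℝ) : ℝ := ∑ x, p x

/-- Mean feature. -/
noncomputable def bar (p : X → ℝ) (φ : X → κ → ℝ) (k : κ) : ℝ := (∑ x, p x * φ x k) / tot p

/-- An envelope dominating all the integrands. -/
noncomputable def env (φ : X → κ → ℝ) (g : κ → ℝ) : ℝ :=
  (∑ x, ∑ k, |g k| * |φ x k|) + ∑ x, dotk (φ x) (φ x)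

lemma env_nonneg (φ : X → κ → ℝ) (g : κ → ℝ) : 0 ≤ env φ g :=
  add_nonneg (sum_nonneg fun _ _ => sum_nonneg fun _ _ => by positivity)
    (sum_nonneg fun _ _ => sum_nonneg fun _ _ => mul_self_nonneg _)

lemma abs_exponent_le (φ : X → κ → ℝ) {h : ℝ} (h0 : 0 ≤ h) (h1 : h ≤ 1) (g : κ → ℝ) (x : X) :
    |√h * dotk g (φ x) - h * dotk (φ x) (φ x) / 2| ≤ √h * env φ g := by
  have hs : 0 ≤ √h := Real.sqrt_nonneg h
  have hss : h ≤ √h := Real.le_sqrt_of_sq_le (by rw [sq]; exact mul_le_of_le_one_left h0 h1)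
  have hd : 0 ≤ dotk (φ x) (φ x) := sum_nonneg fun k _ => mul_self_nonneg _
  have a1 : |dotk g (φ x)| ≤ ∑ y, ∑ k, |g k| * |φ y k| := by
    refine (abs_sum_le_sum_abs _ _).trans ?_
    simp only [abs_mul]
    exact single_le_sum (f := fun y => ∑ k, |g k| * |φ y k|)
      (fun y _ => sum_nonneg fun k _ => by positivity) (mem_univ x)
  have a2 : dotk (φ x) (φ x) ≤ ∑ y, dotk (φ y) (φ y) :=
    single_le_sum (f := fun y => dotk (φ y) (φ y))
      (fun y _ => sum_nonneg fun k _ => mul_self_nonneg _) (mem_univ x)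
  refine (abs_sub _ _).trans ?_
  rw [env, mul_add, abs_mul, abs_of_nonneg hs,
    abs_of_nonneg (show 0 ≤ h * dotk (φ x) (φ x) / 2 by positivity)]
  have := mul_le_mul_of_nonneg_left a1 hs
  have := mul_le_mul hss a2 hd hs
  have := mul_nonneg h0 hd
  linarith

lemma integrable_exp_abs (c : ℝ) :
    Integrable (fun s : ℝ => exp (c * |s|)) (gaussianReal 0 1) := by
  refine ((integrable_exp_mul_gaussianReal c).add (integrable_exp_mul_gaussianReal (-c))).mono'
    (by fun_prop) (ae_of_all _ fun s => ?_)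
  rw [Real.norm_eq_abs, abs_exp, Pi.add_apply]
  rcases abs_cases s with ⟨e, -⟩ | ⟨e, -⟩ <;> rw [e]
  · exact le_add_of_nonneg_right (exp_pos _).le
  · rw [mul_neg, ← neg_mul]
    exact le_add_of_nonneg_left (exp_pos _).le

lemma integrable_exp_env (φ : X → κ → ℝ) (c : ℝ) :
    Integrable (fun g => exp (c * env φ g)) (gauss κ) := by
  have h : Integrable (fun g : κ → ℝ => ∏ k, exp ((c * ∑ x, |φ x k|) * |g k|)) (gauss κ) :=
    Integrable.fintype_prod fun k => integrable_exp_abs _
  refine (h.const_mul (exp (c * ∑ x, dotk (φ x) (φ x)))).congr (ae_of_all _ fun g => ?_)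
  show exp (c * ∑ x, dotk (φ x) (φ x)) * ∏ k, exp ((c * ∑ x, |φ x k|) * |g k|) = exp (c * env φ g)
  rw [← exp_sum, ← exp_add]
  refine congrArg exp ?_
  rw [env, mul_add, add_comm, sum_comm]
  refine congrArg (· + _) ?_
  rw [mul_sum]
  refine sum_congr rfl fun k _ => ?_
  rw [mul_sum, mul_sum, sum_mul]
  exact sum_congr rfl fun x _ => by ring

/-- Continuous functions dominated by an exponential of the envelope are integrable. -/
lemma integrable_of_env {F : (κ → ℝ) → ℝ} (φ : X → κ → ℝ) (hF : Continuous F) {K c : ℝ}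
    (hb : ∀ g, |F g| ≤ K * exp (c * env φ g)) : Integrable F (gauss κ) :=
  ((integrable_exp_env φ c).const_mul K).mono' hF.aestronglyMeasurable
    (ae_of_all _ fun g => by rw [Real.norm_eq_abs]; exact hb g)

lemma integral_exp_dot (v : κ → ℝ) :
    ∫ g, exp (dotk g v) ∂gauss κ = exp (dotk v v / 2) := by
  have e : ∀ g, exp (dotk g v) = ∏ k, exp (v k * g k) := fun g => by
    rw [← exp_sum]
    exact congrArg exp (sum_congr rfl fun k _ => mul_comm _ _)
  simp only [e, gauss]
  rw [integral_fintype_prod_eq_prod (fun k s => exp (v k * s))]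
  have h1 : ∀ k, ∫ s, exp (v k * s) ∂gaussianReal 0 1 = exp (v k ^ 2 / 2) := fun k => by
    have := congrFun (mgf_id_gaussianReal (μ := 0) (v := 1)) (v k)
    simpa [mgf] using this
  simp only [h1, ← exp_sum, dotk, sum_div]
  exact congrArg exp (sum_congr rfl fun k _ => by ring)

lemma tilt_nonneg {p : X → ℝ} (hp : ∀ x, 0 ≤ p x) (φ : X → κ → ℝ) (u : ℝ) (g : κ → ℝ) (x : X) :
    0 ≤ tilt p φ u g x := mul_nonneg (hp x) (exp_pos _).le

lemma tilt_mul (p a : X → ℝ) (φ : X → κ → ℝ) (u : ℝ) (g : κ → ℝ) :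
    tilt (fun x => p x * a x) φ u g = fun x => tilt p φ u g x * a x := by
  funext x
  simp only [tilt]
  ring

lemma continuous_tilt (p : X → ℝ) (φ : X → κ → ℝ) (u : ℝ) (x : X) :
    Continuous fun g => tilt p φ u g x := by
  simp only [tilt, dotk]
  fun_prop

/-- The components average to the measure. -/
lemma integral_tilt (p : X → ℝ) (φ : X → κ → ℝ) {u : ℝ} (hu : 0 ≤ u) (x : X) :
    ∫ g, tilt p φ u g x ∂gauss κ = p x := by
  have e : ∀ g, tilt p φ u g x
      = p x * exp (-(u * dotk (φ x) (φ x) / 2)) * exp (dotk g fun k => √u * φ x k) := fun g => by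
    rw [tilt, mul_assoc, ← exp_add]
    refine congrArg (fun t => p x * exp t) ?_
    simp only [dotk, mul_sum]
    rw [sub_eq_neg_add]
    exact congrArg (-_ + ·) (sum_congr rfl fun k _ => by ring)
  simp only [e, integral_const_mul, integral_exp_dot]
  rw [mul_assoc, ← exp_add]
  have : dotk (fun k => √u * φ x k) (fun k => √u * φ x k) = u * dotk (φ x) (φ x) := by
    simp only [dotk, mul_sum]
    refine sum_congr rfl fun k _ => ?_
    rw [mul_mul_mul_comm, Real.mul_self_sqrt hu]
  rw [this, neg_add_cancel, exp_zero, mul_one]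

/-- Second moments of the components. -/
lemma integral_exp_pair (φ : X → κ → ℝ) {u : ℝ} (hu : 0 ≤ u) (x x' : X) :
    ∫ g, exp (√u * dotk g (φ x) - u * dotk (φ x) (φ x) / 2)
      * exp (√u * dotk g (φ x') - u * dotk (φ x') (φ x') / 2) ∂gauss κ
      = exp (u * dotk (φ x) (φ x')) := by
  have e : ∀ g, exp (√u * dotk g (φ x) - u * dotk (φ x) (φ x) / 2)
      * exp (√u * dotk g (φ x') - u * dotk (φ x') (φ x') / 2)
      = exp (-(u * dotk (φ x) (φ x) / 2) - u * dotk (φ x') (φ x') / 2)
        * exp (dotk g fun k => √u * (φ x k + φ x' k)) := fun g => by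
    rw [← exp_add, ← exp_add]
    refine congrArg exp ?_
    have : dotk g (fun k => √u * (φ x k + φ x' k)) = √u * dotk g (φ x) + √u * dotk g (φ x') := by
      simp only [dotk, mul_sum, ← sum_add_distrib]
      exact sum_congr rfl fun k _ => by ring
    rw [this]
    ring
  simp only [e, integral_const_mul, integral_exp_dot]
  rw [← exp_add]
  refine congrArg exp ?_
  have : dotk (fun k => √u * (φ x k + φ x' k)) (fun k => √u * (φ x k + φ x' k))
      = u * dotk (φ x) (φ x) + 2 * (u * dotk (φ x) (φ x')) + u * dotk (φ x') (φ x') := by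
    simp only [dotk, mul_sum, ← sum_add_distrib]
    refine sum_congr rfl fun k _ => ?_
    rw [mul_mul_mul_comm, Real.mul_self_sqrt hu]
    ring
  rw [this]
  ring

/-- Two localisation steps are one. -/
theorem integral_tilt_tilt [DecidableEq κ] (p : X → ℝ) (φ : X → κ → ℝ) {u h : ℝ} (hu : 0 ≤ u)
    (hh : 0 ≤ h) {Ψ : (X → ℝ) → ℝ} (hc : Continuous fun g => Ψ (tilt p φ (u + h) g))
    (hi : Integrable (fun g => Ψ (tilt p φ (u + h) g)) (gauss κ)) :
    ∫ g, (∫ g', Ψ (tilt (tilt p φ u g) φ h g') ∂gauss κ) ∂gauss κ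
      = ∫ g, Ψ (tilt p φ (u + h) g) ∂gauss κ := by
  rcases (add_nonneg hu hh).eq_or_lt with h0 | h0
  · obtain ⟨rfl, rfl⟩ := (add_eq_zero_iff_of_nonneg hu hh).1 h0.symm
    have : ∀ g : κ → ℝ, tilt p φ 0 g = p := fun g => by funext x; simp [tilt]
    simp [this]
  set s := √(u + h)
  have hs : 0 < s := Real.sqrt_pos.2 h0
  let R : κ → κ ⊕ κ → ℝ := fun i => Sum.elim (fun k => if k = i then √u / s else 0)
    (fun k => if k = i then √h / s else 0)
  have hR : ∀ i j, ∑ k, R i k * R j k = if i = j then 1 else 0 := fun i j => by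
    simp only [Fintype.sum_sum_type, R, Sum.elim_inl, Sum.elim_inr, ite_mul, zero_mul, sum_ite_eq',
      mem_univ, if_true]
    split_ifs with hij
    · rw [div_mul_div_comm, div_mul_div_comm, Real.mul_self_sqrt hu, Real.mul_self_sqrt hh,
        Real.mul_self_sqrt h0.le, ← add_div, div_self h0.ne']
    · simp
  have hmix : ∀ g g' : κ → ℝ, tilt (tilt p φ u g) φ h g'
      = tilt p φ (u + h) (rowMap R (Sum.elim g g')) := fun g g' => by
    funext x
    have e : dotk (rowMap R (Sum.elim g g')) (φ x)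
        = √u / s * dotk g (φ x) + √h / s * dotk g' (φ x) := by
      simp only [dotk, rowMap, Fintype.sum_sum_type, R, Sum.elim_inl, Sum.elim_inr, ite_mul,
        zero_mul, sum_ite_eq', mem_univ, if_true, mul_sum, ← sum_add_distrib]
      exact sum_congr rfl fun i _ => by ring
    simp only [tilt, mul_assoc, ← exp_add, e]
    refine congrArg (fun t => p x * exp t) ?_
    field_simp
    ring
  simp only [hmix]
  have hmap : (gauss (κ ⊕ κ)).map (rowMap R) = gauss κ := gauss_map_rowMap R hR
  have hmeas : Measurable (rowMap R) := measurable_rowMap R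
  have hi2 : Integrable (fun z => Ψ (tilt p φ (u + h) (rowMap R z))) (gauss (κ ⊕ κ)) :=
    (show Integrable (fun g => Ψ (tilt p φ (u + h) g)) ((gauss (κ ⊕ κ)).map (rowMap R)) from by
      rw [hmap]; exact hi).comp_measurable hmeas
  have he := measurePreserving_sumPiEquivProdPi (fun _ : κ ⊕ κ => gaussianReal 0 1)
  have e1 : ∀ g g' : κ → ℝ, (MeasurableEquiv.sumPiEquivProdPi (fun _ : κ ⊕ κ => ℝ)).symm (g, g')
      = Sum.elim g g' := fun g g' => by
    funext k; cases k <;> rfl
  conv_rhs => rw [← hmap]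
  rw [integral_map hmeas.aemeasurable hc.aestronglyMeasurable]
  simp only [gauss] at hi2 ⊢
  rw [← (he.symm _).integral_comp (MeasurableEquiv.measurableEmbedding _)]
  rw [integral_prod]
  · simp only [e1]
  · exact (he.symm _).integrable_comp_of_integrable hi2

end Vale.Agent.P150.Beta1.Local
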